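import Crest.Agent.X262.Conc78.A
import Crest.Agent.X262.End66.Loc
import Crest.Agent.X262.Eqi18.Main
import Crest.Agent.X262.Node22.Chn
import Crest.Agent.X262.Tree87.Rank
import Crest.Agent.X262.Vb.Defs
import Crest.Agent.X262.Tree87.T3
import Crest.Agent.X262.Conc78.Defs
import Crest.Agent.X262.Cd62.Low
import Crest.Agent.X262.Vb.Ax0
import Crest.Agent.X262.Tree87.Ses
import Crest.Agent.X262.Vb.Bas1
import Crest.Agent.X262.Hb.Sat2
import Crest.Agent.X262.Bub96.Lat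
import Crest.Agent.X262.End66.Eqi
import Crest.Agent.X262.Cd62.Prj
import Crest.Agent.X262.Prd86.Pj
import Crest.Agent.X262.End66.Gen
import Crest.Agent.X262.Div34.Core
import Crest.Agent.X262.Tr89.Pb
import Crest.Agent.X262.Sym65.Two
import Crest.Agent.X262.Vb37.Univ
import Crest.Agent.X262.Vb37.Nrm
import Crest.Agent.X262.Cc84.Rank

-- ▼ part X262/Conc78/Glue
section

/-!
# Row 262, road B (helper78): the concave end, the term level step

* `same_TB`, `same_TD`, `rk_TB` : the three systems of equations;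
* `dir_loc`, `Cn.dir_TD`, `Cn.sv_TD`, `root_of` : the direction of the section is normal to the end;
* `cq_step`, `step` : the excess class of `T` is the excess class of the end times `ob (λ)`.
-/

set_option autoImplicit false
set_option linter.unusedSectionVars false

noncomputable section

namespace Crest.Agent.X262.Conc78

open Crest.Agent.X277 Crest.Agent.X277.BD
open Crest.Agent.X262.Hb Crest.Agent.X262.Vb
open Crest.Agent.X262.End66 (sum Loc Same loc_of_mem dp jac_eq dp_mul pv_of_eq dp_of_eq)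
open Crest.Agent.X262.Node22 (mem_Eb mem_Vt)

variable {J : Type} [Fintype J] [DecidableEq J] {io : J → Type} [∀ j, Fintype (io j)]
  [∀ j, DecidableEq (io j)] {A A' : Type} [Fintype A] [Fintype A']
  {I K E : Type} [Fintype I] [Field K] [Algebra ℂ K] [Field E] [Algebra ℂ E] {d : J → ℕ}
  {T : Tgt io A} {c : ℕ}

theorem loc_self (T : Tgt io A) (a : A) : Loc T (T.F a) :=
  loc_of_mem (Ideal.subset_span ⟨a, rfl⟩)

theorem dp_vr (y : Pnt io E) (w : Vr io → E) (j : J) (i : io j) : dp y w (vr j i) = w ⟨j, i⟩ := by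
  simp [dp, pv, MvPolynomial.pderiv_X, Pi.single_apply, apply_ite]

theorem dp_sub (y : Pnt io E) (w : Vr io → E) (g h : MvPolynomial (Vr io) ℂ) :
    dp y w (g - h) = dp y w g - dp y w h := by
  simp only [dp, pv, map_sub, sub_mul, Finset.sum_sub_distrib]

theorem r_sub' {p : Pl ℂ K ℂ E} {x y : K} (hx : x ∈ p.V.1) (hy : y ∈ p.V.1) :
    p.r (x - y) = p.r x - p.r y :=
  eq_sub_of_add_eq (by rw [← Pl.r_add (sub_mem hx hy) hy, sub_add_cancel])

/-- the direction of an equation which is locally in the ideal -/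
theorem dir_loc {g : MvPolynomial (Vr io) ℂ} (hL : Loc T g) {p : LP K E} {y : Pnt io K}
    (hy : Prim p.V y) (hO : T.On (redP p.toPl y)) {u : K} (hu : ∀ a, u * pv y (T.F a) ∈ p.V.1)
    (hg : u * pv y g ∈ p.V.1) {v : Vr io → E}
    (hv : T.jac (redP p.toPl y) v = fun a => p.r (u * pv y (T.F a))) :
    dp (redP p.toPl y) v g = p.r (u * pv y g) := by
  obtain ⟨h, w, h0, e⟩ := hL.ex hy.nz_red hO
  have h1 : ∀ j i, y j i ∈ p.V.1 := fun j => (hy j).1
  refine mul_left_cancel₀ h0 ?_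
  rw [dp_of_eq e hO (hL.on hy.nz_red hO), hv, ← r_pv p.lnr h1, ← Pl.r_mul (pv_mem h1 _) hg,
    mul_left_comm, pv_of_eq e, Finset.mul_sum,
    Tree87.r_sum _ fun a _ => by rw [mul_left_comm]; exact mul_mem (pv_mem h1 _) (hu a)]
  exact Finset.sum_congr rfl fun a _ => by
    rw [mul_left_comm, Pl.r_mul (pv_mem h1 _) (hu a), r_pv p.lnr h1]

/-- the class of the divisor is a root if the direction of the section is normal -/
theorem root_of {B : Th} (hB : B.Ax) [Algebra.EssFiniteType ℂ E] {z : Cfg io I K} (hz : z.NZ)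
    (hO : ¬ z.On T) (p : LP K E)
    (hs : ∀ u : K, (∀ x, u * (z.gau (z.nrm p.V)).sv T x ∈ p.V.1) →
      (fun x => p.r (u * (z.gau (z.nrm p.V)).sv T x)) ∈ (z.red p.toPl).Eb T) :
    (cpz B T (z.red p.toPl)).eval (B.pb p (B.c1 (z.dv T))) = 0 := by
  have hP := Cfg.pr_nrm hz p.V
  have h0 : (z.gau (z.nrm p.V)).sv T ≠ 0 := fun h0 =>
    hO ((Cfg.on_gau T (Cfg.nrm_ne p.V z)).1 ((Cfg.on_iff T).2 h0))
  have hd := Cfg.dv_gau T hz (Cfg.nrm_ne p.V z)
  have h1 : p.V.v ((z.dv T).gen p.V) =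
      (nm ((z.gau (z.nrm p.V)).ea T) p.V ((z.gau (z.nrm p.V)).sv T))⁻¹ := by
    rw [v_gen, ← hd, Cfg.dv, val_neg, val_sz h0]
  have h2 := Node22.eval_dir hB p (hP.val_ea T) h0 h1 (hs _ fun x => RZ.le_one_iff.1 (by
    have h3 := le_nm ((z.gau (z.nrm p.V)).ea T) p.V ((z.gau (z.nrm p.V)).sv T) x
    rw [hP.val_ea T, mul_one] at h3
    rw [map_mul, h1, inv_mul_le_iff₀ (nm_pos h0), mul_one]
    exact h3))
  rw [← Cfg.ea_red0 T hP, ← Cfg.dv, hd] at h2
  exact h2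

theorem cq_step {R : Type*} [CommRing R] {P P' Q o : Polynomial R} {r : ℕ} (hr : r ≠ 0) {δ l : R}
    (h : P = Q * ((-Polynomial.X) ^ r * o.comp (Polynomial.X + Polynomial.C l)))
    (h' : P' = Q * (-Polynomial.X) ^ r) (h0 : P'.eval δ = 0) :
    (-P.divX).eval δ = (-P'.divX).eval δ * o.eval l := by
  obtain ⟨r, rfl⟩ := Nat.exists_eq_succ_of_ne_zero hr
  have e : ∀ S : Polynomial R, (Polynomial.X * S).divX = S := fun S => by
    ext m
    rw [Polynomial.coeff_divX, Polynomial.coeff_X_mul]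
  have h1 : P' = Polynomial.X * (-Q * (-Polynomial.X) ^ r) := by rw [h', pow_succ]; ring
  have h2 : P = Polynomial.X * (-Q * (-Polynomial.X) ^ r *
      o.comp (Polynomial.X + Polynomial.C l)) := by rw [h, pow_succ]; ring
  obtain ⟨t, ht⟩ := Polynomial.sub_dvd_eval_sub (δ + l) l o
  rw [h1, Polynomial.eval_mul, Polynomial.eval_X] at h0
  rw [h1, h2, e, e, Polynomial.eval_neg, Polynomial.eval_neg, Polynomial.eval_mul,
    Polynomial.eval_comp, Polynomial.eval_add, Polynomial.eval_X, Polynomial.eval_C]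
  linear_combination (-Polynomial.eval δ (-Q * (-Polynomial.X) ^ r)) * ht - t * h0

namespace Cn

variable {n : Cn io}

theorem same_TB (hL : ∀ b, Loc T (n.uT.F b)) : Same T (n.TB T) :=
  ⟨fun b => b.rec (loc_self T) hL, fun a => loc_self (n.TB T) (Sum.inl a)⟩

theorem rk_TB (hG : Good T c d) (hL : ∀ b, Loc T (n.uT.F b)) : End66.Rk (n.TB T) c d :=
  (same_TB hL).rk (End66.rk_of_good hG)

variable (n T) in
theorem same_TD : Same (n.TD T) (sum T n.xT) := by
  refine ⟨?_, ?_⟩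
  · rintro (a | p)
    · exact loc_self (n.TD T) (Sum.inl (Sum.inl a))
    · exact loc_self (n.TD T) (Sum.inr p)
  · rintro ((a | b) | p)
    · exact loc_self (sum T n.xT) (Sum.inl a)
    · exact loc_of_mem (sub_mem
        (Ideal.mul_mem_right _ _ (Ideal.subset_span ⟨Sum.inr b.1, rfl⟩))
        (Ideal.mul_mem_right _ _ (Ideal.subset_span ⟨Sum.inr b.2, rfl⟩)))
    · exact loc_self (sum T n.xT) (Sum.inr p)

theorem dp_xi (y : Pnt io E) (w : Vr io → E) (p : n.KL) :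
    dp y w (n.xi p) = w ⟨n.jC, n.f (some p)⟩ := dp_vr _ _ _ _

theorem dp_u {y : Pnt io E} (h : n.xT.On y) (w : Vr io → E) (b : n.KL × n.KL) :
    dp y w (n.uT.F b) = w ⟨n.jC, n.f (some b.1)⟩ * pv y (n.tp b.2) -
      w ⟨n.jC, n.f (some b.2)⟩ * pv y (n.tp b.1) := by
  change dp y w (_ - _) = _
  rw [dp_sub, dp_mul, dp_mul, dp_xi, dp_xi, show pv y (n.xi b.1) = 0 from h _,
    show pv y (n.xi b.2) = 0 from h _]
  ring

theorem exists_tp {y : Pnt io E} (h : NZ y) : ∃ p, pv y (n.tp p) ≠ 0 := by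
  obtain ⟨k, hk⟩ := h n.jU
  obtain ⟨l, hl⟩ := h n.jS
  exact ⟨(k, l), (n.pv_tp y _).trans_ne (mul_ne_zero hk hl)⟩

theorem dir_TD (hL : ∀ b, Loc T (n.uT.F b)) (hv : n.Nv T) {p : LP K E} {y : Pnt io K}
    (hy : Prim p.V y) (hO : (n.TD T).On (redP p.toPl y)) {u : K}
    (hu : ∀ a, u * pv y ((n.TD T).F a) ∈ p.V.1)
    (h : (fun a => p.r (u * pv y (T.F a))) ∈ T.Nm (redP p.toPl y)) :
    (fun a => p.r (u * pv y ((n.TD T).F a))) ∈ (n.TD T).Nm (redP p.toPl y) := by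
  obtain ⟨v, hv1⟩ := h
  have h1 : ∀ j i, y j i ∈ p.V.1 := fun j => (hy j).1
  obtain ⟨⟨hT, -⟩, hx⟩ := (on_sum.trans (and_congr_left' on_sum)).1 hO
  obtain ⟨w, hw, hw'⟩ := hv E _ hy.nz_red (on_sum.2 ⟨hT, hx⟩)
  obtain ⟨p₀, h0⟩ := n.exists_tp hy.nz_red
  have hx' : ∀ a, u * pv y (n.xi a) ∈ p.V.1 := fun a => hu (Sum.inr a)
  have h2 : ∀ b, p.r (u * pv y (n.uT.F b)) =
      p.r (u * pv y (n.xi b.1)) * pv (redP p.toPl y) (n.tp b.2) -
        p.r (u * pv y (n.xi b.2)) * pv (redP p.toPl y) (n.tp b.1) := fun b => by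
    rw [pv_u, mul_sub, ← mul_assoc, ← mul_assoc,
      r_sub' (mul_mem (hx' _) (pv_mem h1 _)) (mul_mem (hx' _) (pv_mem h1 _)),
      Pl.r_mul (hx' _) (pv_mem h1 _), Pl.r_mul (hx' _) (pv_mem h1 _), r_pv p.lnr h1, r_pv p.lnr h1]
  obtain ⟨t, ht⟩ : ∃ t : E, ∀ a, v ⟨n.jC, n.f (some a)⟩ + t * w ⟨n.jC, n.f (some a)⟩ =
      p.r (u * pv y (n.xi a)) := by
    refine ⟨(p.r (u * pv y (n.xi p₀)) - v ⟨n.jC, n.f (some p₀)⟩) / pv (redP p.toPl y) (n.tp p₀),
      fun a => ?_⟩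
    have h3 := dir_loc (hL (a, p₀)) hy hT (fun a => hu (Sum.inl (Sum.inl a)))
      (hu (Sum.inl (Sum.inr (a, p₀)))) hv1
    rw [dp_u hx, h2] at h3
    rw [hw']
    field_simp
    linear_combination h3
  refine ⟨v + t • w, funext ?_⟩
  rintro ((a | b) | a)
  · change T.jac _ (v + t • w) a = _
    rw [map_add, map_smul, hw, smul_zero, add_zero, hv1]
    rfl
  · rw [jac_eq]
    exact (dp_u hx _ b).trans ((h2 b).trans (by rw [← ht, ← ht]; rfl)).symm
  · rw [jac_eq]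
    exact (dp_xi _ _ a).trans (ht a)

theorem sv_TD (hL : ∀ b, Loc T (n.uT.F b)) (hv : n.Nv T) {p : LP K E} {z : Cfg io I K}
    (hz : z.Pr p.V) (hs : z.sv (n.TD T) ∈ z.Vt (n.TD T)) (hO : (z.red0 p.toPl).On (n.TD T)) {u : K}
    (hu : ∀ x, u * z.sv (n.TD T) x ∈ p.V.1)
    (h : (fun x => p.r (u * z.sv T x)) ∈ (z.red0 p.toPl).Eb T) :
    (fun x => p.r (u * z.sv (n.TD T) x)) ∈ (z.red0 p.toPl).Eb (n.TD T) :=
  mem_Eb.2 ⟨fun a => Vb.mem_redS p.toPl (u := fun q => u * z.sv (n.TD T) (a, q))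
      ((z.V _).smul_mem u (mem_Vt.1 hs a)) fun q => hu (a, q),
    fun q => dir_TD hL hv (hz q) (hO q) (fun a => hu (a, q)) ((mem_Eb.1 h).2 q)⟩

end Cn

/-- the term level comparison of `T` with the end -/
theorem step {B : Th} (hB : B.Ax) (hb : BStmt) (hc : CStmt) (n : Cn io) (h : n.Dg d)
    (hG : Good T c d) (hL : ∀ b, Loc T (n.uT.F b)) (hv : n.Nv T) {TP : Tgt io A'}
    (hS : Same (sum T n.xT) TP) : ∃ N : ℕ, ∀ {I K : Type} [Fintype I] [Field K] [Algebra ℂ K]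
    [Algebra.EssFiniteType ℂ K] (ξ : Dat io d I K), ξ.NrmUp N → ξ.cfg.dv T = ξ.cfg.dv TP ∧
    ∀ {E : Type} [Field E] [Algebra ℂ E] [Algebra.EssFiniteType ℂ E] (p : LP K E) (z : Cfg io I E),
      z = ξ.cfg.red p.toPl → z.On T → z.On (sum T n.xT) ∧ z.On TP ∧
      ((ob B n.jU z).natDegree ≤ d n.jU - 1 ∧
        (ob B n.jU z).coeff (d n.jU - 1) = (-1) ^ (d n.jU - 1)) ∧
      (¬ ξ.cfg.On T → (cpz B TP z).eval (B.pb p (B.c1 (ξ.cfg.dv T))) = 0 ∧ ∀ q₀ : I,
        exc B T z (B.pb p (B.c1 (ξ.cfg.dv T))) = exc B TP z (B.pb p (B.c1 (ξ.cfg.dv T))) *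
          (ob B n.jU z).eval (B.c1 (ln (z.y q₀) n.jS))) := by
  have s1 := Cn.same_TB hL
  have s2 := n.same_TD T
  obtain ⟨N1, h1⟩ := hb B hB n T c d h (Cn.rk_TB hG hL) hv
  obtain ⟨N2, h2⟩ := hc B hB n d h
  obtain ⟨N3, h3⟩ := Eqi.same_cp hB s1
  obtain ⟨N4, h4⟩ := Eqi.same_cp hB s2
  obtain ⟨N5, h5⟩ := Eqi.same_cp hB hS
  obtain ⟨N6, h6⟩ := rk_of Tree87.rankStmt hG
  refine ⟨N1 + N2 + N3 + N4 + N5 + N6 + 1, fun {I K} _ _ _ _ ξ hN => ?_⟩
  have hm : ∀ N, N ≤ N1 + N2 + N3 + N4 + N5 + N6 + 1 → ξ.NrmUp N :=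
    fun N hle κ hκ => hN κ fun j => (hκ j).trans hle
  have hz := Tree87.nz_cfg ξ
  have d1 : ξ.cfg.dv T = ξ.cfg.dv (n.TD T) :=
    (s1.dv_eq hz).trans (Cn.dv_eq h T (hm 1 (by omega) _ n.kq_le))
  refine ⟨d1.trans ((s2.dv_eq hz).trans (hS.dv_eq hz)), ?_⟩
  rintro E _ _ _ p _ rfl hO
  have hz' := hz.red p.toPl
  have ht := Bub96.tl_red hN p.toPl
  have o1 := (s1.cfg_on hz').1 hO
  have o2 := Cn.tl_x h (ht.mono (by omega)) (cfg_on_sum.1 o1).2
  have o3 : (ξ.cfg.red p.toPl).On (n.TD T) := cfg_on_sum.2 ⟨o1, o2⟩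
  have o4 : (ξ.cfg.red p.toPl).On (sum T n.xT) := cfg_on_sum.2 ⟨hO, o2⟩
  obtain ⟨e1, e2⟩ := h1 ξ (hm _ (by omega)) p _ rfl o3
  obtain ⟨e3, e4⟩ := h2 ξ (hm _ (by omega)) p _ rfl
  have e5 : cpz B (n.TD T) (ξ.cfg.red p.toPl) = cpz B TP (ξ.cfg.red p.toPl) :=
    (h4 (by omega) ht o3).trans (h5 (by omega) ht o4)
  refine ⟨o4, (hS.cfg_on hz').1 o4, e3, fun hn => ?_⟩
  have r1 := root_of hB hz (T := n.TD T) (fun h' => hn (cfg_on_sum.1 (cfg_on_sum.1 h').1).1) p
    fun u hu => Cn.sv_TD hL hv (Cfg.pr_nrm hz _) (Tree87.sv_mem_cfg _ ξ _) o3 hu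
      ((h6 ξ hz (hm _ (by omega))).sv p hO u fun x => hu (Sum.inl (Sum.inl x.1), x.2))
  rw [← d1] at r1
  refine ⟨e5 ▸ r1, fun q₀ => ?_⟩
  obtain ⟨p₀, -⟩ := n.exists_tp (hz' q₀)
  rw [exc_eq, exc_eq, ← e5]
  exact cq_step (Fintype.card_pos_iff.2 ⟨p₀⟩).ne'
    ((h3 (by omega) ht hO).trans (e1.trans (by rw [e4 o2 q₀]))) e2 r1

end Crest.Agent.X262.Conc78
end
end

-- ▼ part X262/Read67/Defs
section

/-!
# Row 262, road B (helper67): the concave end, field level definitions and statements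

* `kz σ` : the matrix of `δ ↦ δ ∧ σ`;  `Cv io U` : a factor `k` with coordinates `Option U`, whose
  coordinates `some u` are proportional to `σ u`;  `At`, `mt`, `Tb`, `cl`;
* `Rel`, `Hyp` : `T` is the target, `T₀ ∩ {At}` is the end;
* `opt`, `ext`, `fac`, `up`, `cv1`, `cvK`, `cvP` : one more factor;
* the statements `KzStmt`, `TbStmt`, `DvStmt`, `CpStmt`, `PdStmt`, `RootStmt`, `CmpStmt`, `RdStmt`.
-/

set_option autoImplicit false
set_option linter.unusedSectionVars false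
set_option maxHeartbeats 400000

noncomputable section

namespace Crest.Agent.X262.Read67

open Crest.Agent.X277 Crest.Agent.X277.BD Polynomial
open Crest.Agent.X262.Hb Crest.Agent.X262.Vb
open Crest.Agent.X262.Tree87 (Rb TL)
open Crest.Agent.X262.Bub96.Tr (dot)

variable {J : Type} [Fintype J] [DecidableEq J] {io : J → Type} [∀ j, Fintype (io j)]
  [∀ j, DecidableEq (io j)] {A A' A₀ U : Type} [Fintype A] [Fintype A'] [Fintype A₀] [Fintype U]
  [DecidableEq U]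

theorem mh_X (v : Vr io) : MH (MvPolynomial.X v) (Pi.single v.1 1) :=
  MvPolynomial.isWeightedHomogeneous_X ℂ _ v

theorem mh_mul {p q : MvPolynomial (Vr io) ℂ} {κ κ' : J → ℕ} (hp : MH p κ) (hq : MH q κ') :
    MH (p * q) (κ + κ') := MvPolynomial.IsWeightedHomogeneous.mul hp hq

theorem mh_sub {p q : MvPolynomial (Vr io) ℂ} {κ : J → ℕ} (hp : MH p κ) (hq : MH q κ) :
    MH (p - q) κ :=
  (MvPolynomial.weightedHomogeneousSubmodule ℂ _ κ).sub_mem hp hq

/-- the matrix of `δ ↦ δ ∧ σ` -/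
def kz (σ : U → MvPolynomial (Vr io) ℂ) (p : U × U) (u : U) : MvPolynomial (Vr io) ℂ :=
  (if u = p.1 then σ p.2 else 0) - if u = p.2 then σ p.1 else 0

/-- no common zero -/
def Nz (σ : U → MvPolynomial (Vr io) ℂ) : Prop :=
  ∀ (E : Type) [Field E] [Algebra ℂ E] (y : Pnt io E), NZ y → ∃ u, pv y (σ u) ≠ 0

/-- a factor whose last coordinates are proportional to `σ` -/
structure Cv (io : J → Type) (U : Type) where
  /-- the factor -/
  k : J
  /-- its coordinates -/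
  e : Option U ≃ io k
  /-- the direction -/
  σ : U → MvPolynomial (Vr io) ℂ
  /-- its multidegree -/
  κ : J → ℕ
  hom : ∀ u, MH (σ u) κ
  κk : κ k = 0
  nz : Nz σ

namespace Cv

variable (v : Cv io U) {I E : Type} [Fintype I] [Field E] [Algebra ℂ E]

/-- the variables which vanish on the end -/
def x (u : U) : Vr io := ⟨v.k, v.e (some u)⟩

/-- the point lies over the base point of the factor `k` -/
def At (y : Pnt io E) : Prop := ∀ u, y v.k (v.e (some u)) = 0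

/-- the minors -/
def mt : Tgt io (U × U) where
  F p := MvPolynomial.X (v.x p.1) * v.σ p.2 - MvPolynomial.X (v.x p.2) * v.σ p.1
  k _ := v.κ + Pi.single v.k 1
  hom p := by
    rw [add_comm]
    exact mh_sub (mh_mul (mh_X (v.x p.1)) (v.hom _)) (mh_mul (mh_X (v.x p.2)) (v.hom _))

/-- the sections of `O ^ U / O(-κ)`, twisted by `O(1)` of the factor `k` -/
def Tb (z : Cfg io I E) : Submodule E ((U × U) × I → E) := Rb v.mt.k (kz v.σ) z

/-- its Chern polynomial -/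
def cl (B : Th) (z : Cfg io I E) : (B.H E)[X] := B.cp (z.ea v.mt) (v.Tb z)

end Cv

/-- `T` satisfies the minors, and `T ∩ {At} = T₀ ∩ {At}` as schemes -/
structure Rel (v : Cv io U) (T : Tgt io A) (T₀ : Tgt io A₀) : Prop where
  k0 : ∀ b, T₀.k b v.k = 0
  m1 : ∀ p, v.mt.F p ∈ Ideal.span (Set.range T.F)
  m2 : ∀ a, T.F a ∈ Ideal.span (Set.range T₀.F ∪ Set.range fun u => MvPolynomial.X (v.x u))
  m3 : ∀ (E : Type) [Field E] [Algebra ℂ E] (y : Pnt io E), NZ y → T.On y → v.At y → ∀ b,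
    ∃ h, pv y h ≠ 0 ∧
      h * T₀.F b ∈ Ideal.span (Set.range T.F ∪ Set.range fun u => MvPolynomial.X (v.x u))

/-- the end is a divisor of `T`, of negative degree on the curves -/
structure Hyp (v : Cv io U) (T : Tgt io A) (T₀ : Tgt io A₀) (c c₀ : ℕ) (d : J → ℕ) : Prop where
  rel : Rel v T T₀
  good : Good T c d
  good₀ : Good T₀ c₀ d
  cod : c + 1 = c₀ + Fintype.card U
  dk : d v.k = 0
  pos : dot v.κ d ≠ 0

/-! ### one more factor -/

/-- one more factor with coordinates `X` -/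
def opt (io : J → Type) (X : Type) : Option J → Type
  | none => X
  | some j => io j

instance {X : Type} [h : Fintype X] : ∀ j, Fintype (opt io X j)
  | none => h
  | some j => inferInstanceAs (Fintype (io j))

instance {X : Type} [h : DecidableEq X] : ∀ j, DecidableEq (opt io X j)
  | none => h
  | some j => inferInstanceAs (DecidableEq (io j))

/-- extension of a multidegree by zero -/
def od0 (d : J → ℕ) : Option J → ℕ := fun j => j.elim 0 d

section Opt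

variable (X : Type) [Fintype X] [DecidableEq X]

/-- the old variables -/
def vs (v : Vr io) : Vr (opt io X) := ⟨some v.1, v.2⟩

theorem mh_vs {q : MvPolynomial (Vr io) ℂ} {κ : J → ℕ} (h : MH q κ) :
    MH (MvPolynomial.rename (vs X) q) (od0 κ) := by
  intro s hs
  obtain ⟨u, rfl, hu⟩ := MvPolynomial.coeff_rename_ne_zero _ _ _ hs
  rw [← h hu]
  funext j
  rw [Finsupp.weight_apply, Finsupp.weight_apply,
    Finsupp.sum_mapDomain_index (by simp) (by simp [add_smul]), Finsupp.sum, Finsupp.sum,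
    Finset.sum_apply]
  rcases j with _ | j
  · simp [od0, vs]
  · simp only [od0, Option.elim, Finset.sum_apply]
    refine Finset.sum_congr rfl fun v _ => ?_
    simp [vs, Pi.single_apply]

/-- the same equations -/
def ext (T : Tgt io A) : Tgt (opt io X) A where
  F a := MvPolynomial.rename (vs X) (T.F a)
  k a := od0 (T.k a)
  hom a := mh_vs X (T.hom a)

variable {X} {E : Type}

/-- forget the new factor -/
def fp (y : Pnt (opt io X) E) : Pnt io E := fun j => y (some j)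

variable [Field E] [Algebra ℂ E]

theorem pv_vs (y : Pnt (opt io X) E) (q : MvPolynomial (Vr io) ℂ) :
    pv y (MvPolynomial.rename (vs X) q) = pv (fp y) q := MvPolynomial.aeval_rename _ _ _


/-- a constant map to the new factor -/
def up {d : J → ℕ} {I : Type} (ξ : Dat io d I E) (μ : X → E) (h : ∃ x, μ x ≠ 0) :
    Dat (opt io X) (od0 d) I E where
  f j := match j with
    | none => fun x => C (μ x)
    | some j => ξ.f j
  x := ξ.x
  cp := by
    obtain ⟨x, hx⟩ := h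
    refine ⟨?_, ?_, ?_⟩ <;> rintro (_ | j)
    · exact fun i => (natDegree_C _).le
    · exact ξ.cp.1 j
    · exact ⟨x, by simpa [od0] using hx⟩
    · exact ξ.cp.2.1 j
    · exact Ideal.eq_top_of_isUnit_mem _ (Ideal.subset_span ⟨x, rfl⟩) (isUnit_C.2 hx.isUnit)
    · exact ξ.cp.2.2 j

end Opt

/-- the cone in the direction `σ` -/
def cv1 (σ : U → MvPolynomial (Vr io) ℂ) (κ : J → ℕ) (h : ∀ u, MH (σ u) κ) (h0 : Nz σ) :
    Cv (opt io (Option U)) U where
  k := none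
  e := Equiv.refl _
  σ u := MvPolynomial.rename (vs (Option U)) (σ u)
  κ := od0 κ
  hom u := mh_vs _ (h u)
  κk := rfl
  nz E _ _ y hy := by
    obtain ⟨u, hu⟩ := h0 E (fp y) fun j => hy (some j)
    exact ⟨u, by rwa [pv_vs]⟩


/-- the coordinates of `y ⊗ μ` -/
def sgP (k : J) (W : Type) (u : io k × W) : MvPolynomial (Vr (opt io W)) ℂ :=
  MvPolynomial.X (⟨some k, u.1⟩ : Vr (opt io W)) * MvPolynomial.X (⟨none, u.2⟩ : Vr (opt io W))

theorem pv_sgP (k : J) (W : Type) (u : io k × W) {E : Type} [Field E] [Algebra ℂ E]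
    (y : Pnt (opt io W) E) : pv y (sgP k W u) = y (some k) u.1 * y none u.2 := by
  rw [sgP, pv, map_mul, MvPolynomial.aeval_X, MvPolynomial.aeval_X]

/-- the direction is `y ⊗ μ`, `y` the point of the factor `k`, `μ` the point of the new factor -/
def cvP (k : J) (W : Type) [Fintype W] [DecidableEq W] :
    Cv (opt (opt io W) (Option (io k × W))) (io k × W) :=
  cv1 (sgP k W) (Pi.single (some k) 1 + Pi.single none 1)
    (fun u => mh_mul (mh_X (⟨some k, u.1⟩ : Vr (opt io W))) (mh_X (⟨none, u.2⟩ : Vr (opt io W))))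
    fun _ _ _ y hy => by
      obtain ⟨u, hu⟩ := hy (some k)
      obtain ⟨w, hw⟩ := hy none
      exact ⟨(u, w), by rw [pv_sgP]; exact mul_ne_zero hu hw⟩

/-- `μ` is the generic point of a projective space over `K`, with function field `F` -/
structure PGen {K F X : Type} [Field K] [Algebra ℂ K] [Field F] [Algebra ℂ F] [Fintype X]
    (θ : K →ₐ[ℂ] F) (μ : X → F) : Prop where
  ne : ∀ x, μ x ≠ 0
  gen : IntermediateField.adjoin ℂ (Set.range θ ∪ {t | ∃ x x', t = μ x / μ x'}) = ⊤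
  dm : dim ℂ F + 1 = dim ℂ K + Fintype.card X

/-! ### statements -/






/-- the Chern roots of `Tb` on the generic fibre -/
def RootStmt : Prop :=
  ∀ (B : Th), B.Ax → ∀ {J : Type} [Fintype J] [DecidableEq J] {io : J → Type}
    [∀ j, Fintype (io j)] [∀ j, DecidableEq (io j)] (k : J) (W : Type) [Fintype W] [DecidableEq W]
    (d : J → ℕ) (h : ℕ), d k = h + 1 → ∃ N : ℕ, ∀ {I K F : Type} [Fintype I] [Field K]
    [Algebra ℂ K] [Field F] [Algebra ℂ F] [Algebra.EssFiniteType ℂ F] (ξ : Dat io d I K),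
    ξ.NrmUp N → ∀ (θ : K →ₐ[ℂ] F) (μ : W → F) (hμ : ∃ w, μ w ≠ 0) (ζ : Option (io k × W) → F)
    (hζ : ∃ x, ζ x ≠ 0), ∃ l₁ l₂ : List (BD ℂ F),
      (cvP k W).cl B (up (up (ξ.map θ) μ hμ) ζ hζ).cfg = B.cl (l₁ ++ l₂) ∧
      l₁.length = Fintype.card (io k × W) ∧ l₂.length = h ∧
      ∀ V : RZ ℂ F, (∀ a, θ a ∈ V.1) → (∀ b ∈ l₁, b.val V = (mxf ℂ ζ).val V) ∧
        ∀ b ∈ l₂, b.val V = (mxf ℂ ζ - mxf ℂ μ).val V



end Crest.Agent.X262.Read67
end
end

-- ▼ part X262/Read67/Sd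
section

/-!
# Row 262, road B (helper67): the special datum of the concave end

* `dat r ξ μ ζ` : the datum `ξ` with the constant maps `μ`, `ζ` to the factors `S`, `C`;
* `SD r d₀ M N` : the tower `K → K₁ → K₂` with the generic points of `C` and of `S`.
-/

set_option autoImplicit false
set_option linter.unusedSectionVars false
set_option maxHeartbeats 400000

noncomputable section

namespace Crest.Agent.X262.Read67

open Crest.Agent.X277 Crest.Agent.X277.BD Polynomial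
open Crest.Agent.X262.Hb Crest.Agent.X262.Vb
open Crest.Agent.X262.Conc78 (Cd)

variable {J : Type} [Fintype J] [DecidableEq J] {io : J → Type} [∀ j, Fintype (io j)]
  [∀ j, DecidableEq (io j)] {J₀ : Type} [Fintype J₀] [DecidableEq J₀] {io₀ : J₀ → Type}
  [∀ j, Fintype (io₀ j)] [∀ j, DecidableEq (io₀ j)]

section Dat

variable (r : Cd io₀ io) {d₀ : J₀ → ℕ} {I K L : Type} [Field K] [Algebra ℂ K] [Field L]
  [Algebra ℂ L]

/-- a family indexed by the variables, given on the three kinds of factors -/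
def tri {R : Type} (f : Pnt io₀ R) (μ : io r.cn.jS → R) (ζ : io r.cn.jC → R) : Pnt io R :=
  Equiv.piCongrLeft (fun j => io j → R) r.e fun o => match o with
    | none => ζ
    | some none => μ
    | some (some k) => fun i => f k ((r.ei k).symm i)

section Tri

variable {R : Type} (f : Pnt io₀ R) (μ μ' : io r.cn.jS → R) (ζ : io r.cn.jC → R)

theorem tri_C : tri r f μ ζ (r.e none) = ζ := Equiv.piCongrLeft_apply_apply _ _ _ _

theorem tri_S : tri r f μ ζ (r.e (some none)) = μ := Equiv.piCongrLeft_apply_apply _ _ _ _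

theorem tri_k (k : J₀) : tri r f μ ζ (r.e (some (some k))) = fun i => f k ((r.ei k).symm i) :=
  Equiv.piCongrLeft_apply_apply _ _ _ _

theorem pr_tri : r.pr (tri r f μ ζ) = f := by
  funext k i
  rw [Cd.pr, tri_k]
  exact congrArg _ (Equiv.symm_apply_apply _ _)

/-- the three kinds of factors -/
theorem cases {p : J → Prop} (hC : p (r.e none)) (hS : p (r.e (some none)))
    (hk : ∀ k, p (r.e (some (some k)))) (j : J) : p j := by
  obtain ⟨j, rfl⟩ := r.e.surjective j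
  rcases j with _ | _ | k
  exacts [hC, hS, hk k]

theorem tri_ne {j : J} (h : j ≠ r.cn.jS) : tri r f μ ζ j = tri r f μ' ζ j := by
  induction j using cases r with
  | hC => rw [tri_C, tri_C]
  | hS => exact (h rfl).elim
  | hk k => rw [tri_k, tri_k]

theorem tri_comp {R' : Type} (g : R → R') (j : J) (i : io j) :
    g (tri r f μ ζ j i) = tri r (fun k i => g (f k i)) (g ∘ μ) (g ∘ ζ) j i := by
  induction j using cases r with
  | hC => rw [tri_C, tri_C]; rfl
  | hS => rw [tri_S, tri_S]; rfl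
  | hk k => rw [tri_k, tri_k]

end Tri

omit [Algebra ℂ K] in
theorem cp_const {X : Type} {μ : X → K} (h : ∃ x, μ x ≠ 0) :
    Ideal.span (Set.range fun x => (C (μ x) : K[X])) = ⊤ := by
  obtain ⟨x, hx⟩ := h
  exact Ideal.eq_top_of_isUnit_mem _ (Ideal.subset_span ⟨x, rfl⟩) (isUnit_C.2 hx.isUnit)

/-- the datum `ξ` with constant maps to `S` and to `C` -/
def dat (ξ : Dat io₀ d₀ I K) (μ : io r.cn.jS → K) (ζ : io r.cn.jC → K) (hμ : ∃ i, μ i ≠ 0)
    (hζ : ∃ i, ζ i ≠ 0) : Dat io (r.up d₀) I K where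
  f := tri r ξ.f (fun i => C (μ i)) fun i => C (ζ i)
  x := ξ.x
  cp := by
    refine ⟨cases r ?_ ?_ fun k => ?_, cases r ?_ ?_ fun k => ?_, cases r ?_ ?_ fun k => ?_⟩
    · rw [tri_C]; exact fun i => (natDegree_C _).le.trans (Nat.zero_le _)
    · rw [tri_S]; exact fun i => (natDegree_C _).le.trans (Nat.zero_le _)
    · rw [tri_k, Cd.up_k]; exact fun i => ξ.cp.1 k _
    · rw [tri_C, Cd.up_C]; exact hζ.imp fun i hi => by rwa [coeff_C_zero]
    · rw [tri_S, Cd.up_S]; exact hμ.imp fun i hi => by rwa [coeff_C_zero]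
    · rw [tri_k, Cd.up_k]
      obtain ⟨i, hi⟩ := ξ.cp.2.1 k
      exact ⟨r.ei k i, by beta_reduce; rwa [Equiv.symm_apply_apply]⟩
    · rw [tri_C]; exact cp_const hζ
    · rw [tri_S]; exact cp_const hμ
    · rw [tri_k, ← ξ.cp.2.2 k]
      exact congrArg _ ((r.ei k).symm.surjective.range_comp (ξ.f k))

variable (ξ : Dat io₀ d₀ I K) {μ μ' : io r.cn.jS → K} {ζ : io r.cn.jC → K} (hμ : ∃ i, μ i ≠ 0)
  (hμ' : ∃ i, μ' i ≠ 0) (hζ : ∃ i, ζ i ≠ 0)

theorem dat_x : (dat r ξ μ ζ hμ hζ).x = ξ.x := rfl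

theorem dat_f_C : (dat r ξ μ ζ hμ hζ).f (r.e none) = fun i => C (ζ i) := tri_C r _ _ _

theorem dat_f_S : (dat r ξ μ ζ hμ hζ).f (r.e (some none)) = fun i => C (μ i) := tri_S r _ _ _

theorem dat_f_k (k : J₀) (i : io₀ k) :
    (dat r ξ μ ζ hμ hζ).f (r.e (some (some k))) (r.ei k i) = ξ.f k i :=
  congrFun (congrFun (pr_tri r ξ.f _ _) k) i

theorem dat_f_ne {j : J} (h : j ≠ r.cn.jS) :
    (dat r ξ μ ζ hμ hζ).f j = (dat r ξ μ' ζ hμ' hζ).f j := tri_ne r _ _ _ _ h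

omit [Algebra ℂ K] [Algebra ℂ L] in
theorem ex_comp {X : Type} {μ : X → K} (h : ∃ x, μ x ≠ 0) {F : Type} [FunLike F K L]
    [MonoidWithZeroHomClass F K L] (α : F) : ∃ x, (α ∘ μ) x ≠ 0 :=
  h.imp fun _ hx => (map_ne_zero α).2 hx

theorem dat_map (α : K →ₐ[ℂ] L) : (dat r ξ μ ζ hμ hζ).map α =
    dat r (ξ.map α) (α ∘ μ) (α ∘ ζ) (ex_comp hμ α) (ex_comp hζ α) := by
  unfold Dat.map dat
  congr 1
  funext j i
  rw [tri_comp r _ _ _ (Polynomial.map (α : K →+* L))]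
  congr 1 <;> funext i <;> exact map_C _


theorem dat_pt (t : Option K) : (dat r ξ μ ζ hμ hζ).pt t = tri r (ξ.pt t) μ ζ := by
  funext j
  induction j using cases r with
  | hC =>
    funext i
    rw [Dat.pt, dat_f_C, tri_C, Cd.up_C]
    cases t <;> simp [Bub96.hv]
  | hS =>
    funext i
    rw [Dat.pt, dat_f_S, tri_S, Cd.up_S]
    cases t <;> simp [Bub96.hv]
  | hk k =>
    funext i
    obtain ⟨i, rfl⟩ := (r.ei k).surjective i
    rw [Dat.pt, dat_f_k, tri_k, Cd.up_k]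
    beta_reduce
    rw [Equiv.symm_apply_apply, Dat.pt]

end Dat

theorem PGen.ex {K F X : Type} [Field K] [Algebra ℂ K] [Field F] [Algebra ℂ F] [Fintype X]
    [h : Nonempty X] {θ : K →ₐ[ℂ] F} {μ : X → F} (g : PGen θ μ) : ∃ x, μ x ≠ 0 :=
  h.elim fun x => ⟨x, g.ne x⟩

/-- the special datum -/
structure SD (r : Cd io₀ io) (d₀ : J₀ → ℕ) (M : Type) [Fintype M] (N : ℕ) where
  /-- the points -/
  I : Type
  /-- the universal field of the end -/
  K₀ : Type
  /-- the field of the end -/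
  K : Type
  /-- the field with the generic point of `C` -/
  K₁ : Type
  /-- the field with the generic points of `C` and `S` -/
  K₂ : Type
  /-- the universal field -/
  F₀ : Type
  [fI : Fintype I]
  [f₀ : Field K₀] [a₀ : Algebra ℂ K₀] [e₀ : Algebra.EssFiniteType ℂ K₀]
  [fK : Field K] [aK : Algebra ℂ K] [eK : Algebra.EssFiniteType ℂ K]
  [f₁ : Field K₁] [l₁ : Algebra ℂ K₁] [e₁ : Algebra.EssFiniteType ℂ K₁]
  [f₂ : Field K₂] [l₂ : Algebra ℂ K₂] [e₂ : Algebra.EssFiniteType ℂ K₂]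
  [fF : Field F₀] [aF : Algebra ℂ F₀] [eF : Algebra.EssFiniteType ℂ F₀]
  /-- the datum of the end -/
  ξ : Dat io₀ d₀ I K
  /-- the marks -/
  m : M → I
  /-- the universal field of the end inside `K` -/
  θ₀ : K₀ →ₐ[ℂ] K
  ov : Over ξ m θ₀
  pos : 0 < deg θ₀
  nrm : ξ.NrmUp N
  /-- first step -/
  a₁ : K →ₐ[ℂ] K₁
  /-- the generic point of `C` -/
  ζ : io r.cn.jC → K₁
  gζ : PGen a₁ ζ
  hζ : ∃ i, ζ i ≠ 0
  /-- second step -/
  a₂ : K₁ →ₐ[ℂ] K₂
  /-- the generic point of `S` -/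
  μ : io r.cn.jS → K₂
  gμ : PGen a₂ μ
  hμ : ∃ i, μ i ≠ 0
  /-- the universal field inside `K₂` -/
  τ : F₀ →ₐ[ℂ] K₂
  ov' : Over (dat r (ξ.map (a₂.comp a₁)) μ (a₂ ∘ ζ) hμ (ex_comp hζ a₂)) m τ
  pos' : 0 < deg τ
  nrm' : (dat r (ξ.map (a₂.comp a₁)) μ (a₂ ∘ ζ) hμ (ex_comp hζ a₂)).NrmUp N

attribute [instance] SD.fI SD.f₀ SD.a₀ SD.e₀ SD.fK SD.aK SD.eK SD.f₁ SD.l₁ SD.e₁ SD.f₂ SD.l₂ SD.e₂
  SD.fF SD.aF SD.eF

namespace SD

variable {r : Cd io₀ io} {d₀ : J₀ → ℕ} {M : Type} [Fintype M] {N : ℕ} (S : SD r d₀ M N)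

/-- the datum over `K₂` -/
def ξ' : Dat io (r.up d₀) S.I S.K₂ :=
  dat r (S.ξ.map (S.a₂.comp S.a₁)) S.μ (S.a₂ ∘ S.ζ) S.hμ (ex_comp S.hζ S.a₂)

/-- a datum over `K₁` which agrees with `ξ'` away from `S` -/
def ξ₁ : Dat io (r.up d₀) S.I S.K₁ :=
  dat r (S.ξ.map S.a₁) (fun _ => 1) S.ζ (S.hμ.imp fun _ _ => one_ne_zero) S.hζ

theorem ov_ξ' : Over S.ξ' S.m S.τ := S.ov'

theorem nrm_ξ' : S.ξ'.NrmUp N := S.nrm'

theorem map_comp : (S.ξ.map S.a₁).map S.a₂ = S.ξ.map (S.a₂.comp S.a₁) := by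
  unfold Dat.map
  congr 1
  · funext j i
    exact Polynomial.map_map _ _ _
  · funext q
    exact Option.map_map _ _ _

theorem f_ne {j : J} (h : j ≠ r.cn.jS) : S.ξ'.f j = (S.ξ₁.map S.a₂).f j := by
  rw [ξ₁, dat_map, map_comp]
  exact dat_f_ne r _ _ _ _ h

theorem x_eq : S.ξ'.x = (S.ξ₁.map S.a₂).x := by
  rw [ξ₁, dat_map, map_comp]
  rfl

theorem dim_S : dim ℂ S.K₂ + 1 = dim ℂ S.K₁ + Fintype.card (io r.cn.jS) := S.gμ.dm

end SD

/-- existence of the special datum -/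
def ExSD : Prop :=
  ∀ {J : Type} [Fintype J] [DecidableEq J] {io : J → Type} [∀ j, Fintype (io j)]
    [∀ j, DecidableEq (io j)] {J₀ : Type} [Fintype J₀] [DecidableEq J₀] {io₀ : J₀ → Type}
    [∀ j, Fintype (io₀ j)] [∀ j, DecidableEq (io₀ j)] (r : Cd io₀ io) (d₀ : J₀ → ℕ) (M : Type)
    [Fintype M] (N : ℕ), 3 ≤ Fintype.card M →
    (∀ k, Nonempty (io₀ k) ∧ (d₀ k = 0 ∨ Nontrivial (io₀ k))) → Nonempty (io r.cn.jS) →
    Nonempty (SD r d₀ M N)

/-- the top coefficient -/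
def TopStmt : Prop :=
  ∀ (B : Th), B.Ax → ∀ {J : Type} [Fintype J] [DecidableEq J] {io : J → Type}
    [∀ j, Fintype (io j)] [∀ j, DecidableEq (io j)] {J₀ : Type} [Fintype J₀] [DecidableEq J₀]
    {io₀ : J₀ → Type} [∀ j, Fintype (io₀ j)] [∀ j, DecidableEq (io₀ j)] {A₀ : Type} [Fintype A₀]
    (r : Cd io₀ io) (Tn : Tgt io₀ A₀) (c₀ : ℕ) (d₀ : J₀ → ℕ), Good Tn c₀ d₀ →
    ∃ N₀ : ℕ, ∀ N, N₀ ≤ N → ∀ {M : Type} [Fintype M] (S : SD r d₀ M N)
    (Φ : MFam B io₀ M), MCls B Tn Φ → ∀ (q₀ : M) (r₀ : ℕ), Fintype.card (io r.cn.jS) = r₀ + 1 →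
    vir B (End66.sum (r.tgt Tn) r.cn.xT) S.ξ'.cfg S.m
        (fun E _ _ y => hc B r.cn.jS E (y q₀) ^ r₀ * Φ E fun q => r.pr (y q)) =
      vir B Tn S.ξ.cfg S.m Φ

end Crest.Agent.X262.Read67
end
end

-- ▼ part X262/Cd62/Main
section

/-!
# Row 262, road B (helper62): concavity at field level

`conc_of : BStmt → CStmt → ExSD → TopStmt → ConcF`.
-/

set_option autoImplicit false
set_option linter.unusedSectionVars false

noncomputable section

namespace Crest.Agent.X262.Cd62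

open Crest.Agent.X277 Crest.Agent.X277.BD Crest.Agent.X277.Pst Crest.Agent.X277.BD.Cyc
open Crest.Agent.X262.Hb Crest.Agent.X262.Vb Crest.Agent.X262.Conc78

/-- **concavity at field level** -/
theorem conc_of (hb : BStmt) (hc : CStmt) (h1 : Read67.ExSD) (h2 : Read67.TopStmt) : ConcF := by
  intro B hB J _ _ io _ _ A _ J₀ _ _ io₀ _ _ A₀ _ r T c Tn c₀ d₀ hU hG hG₀ hL hS hv M _ al be ga
    hal hbe hga he hr
  by_cases h : 3 ≤ Fintype.card M ∧ ∀ k, Nonempty (io₀ k) ∧ (d₀ k = 0 ∨ Nontrivial (io₀ k))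
  swap
  · refine ⟨1, one_ne_zero, ?_⟩
    rw [GW_of_not, GW_of_not, mul_zero]
    · rintro ⟨K, _, _, ξ, hξ⟩
      exact h ⟨Vb37.univ_card hξ, Vb37.cp_cond ξ.cp⟩
    · rintro ⟨K, _, _, ξ, hξ⟩
      exact h ⟨Vb37.univ_card hξ, Vb37.cp_cond (pd r ξ).cp⟩
  have hD : r.cn.Dg (r.up d₀) := ⟨r.up_C _, r.up_S _, by rwa [← r.up_k d₀] at hU⟩
  obtain ⟨N₁, s1⟩ := step hB hb hc r.cn hD hG hL hv hS
  obtain ⟨N₂, s2⟩ := h2 B hB r Tn c₀ d₀ hG₀
  obtain ⟨N₃, s3⟩ := hG.vir_eq hB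
  obtain ⟨N₄, s4⟩ := hG₀.vir_eq hB
  obtain ⟨S⟩ := h1 r d₀ M (N₁ + N₂ + N₃ + N₄) h.1 h.2 (Fintype.card_pos_iff.1 (by omega))
  obtain ⟨q₀⟩ : Nonempty M := Fintype.card_pos_iff.1 (by omega)
  have e : r.up d₀ r.cn.jU = d₀ r.jU := r.up_k _ _
  obtain ⟨t1, t2⟩ := s1 S.ξ' (Vb10.nrmUp_mono S.nrm_ξ' (by omega))
  rw [e] at t2
  have t3 := vir_low hB hbe hga he (h := d₀ r.jU - 1) rfl (fun _ => S.f_ne) S.x_eq
    (by have := S.dim_S; omega) ⟨t1, fun W hW hw => by
      have := Geo.essFT_Rf hW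
      obtain ⟨o1, o2, o3, o4⟩ := t2 (LP.at W) _ rfl (on_at (Tree87.nz_cfg _) hw)
      exact ⟨o1, o2, o3, (o4 fun h0 => hw (by rw [Cfg.dv_of_on T h0, val_zero])).2⟩⟩ S.m q₀
  rw [s2 _ (by omega) S _ (MCls.prd hga) q₀ _ (by omega),
    s3 _ (MCls.prd hal) S.ov_ξ' (Vb10.nrmUp_mono S.nrm_ξ' (by omega)),
    s4 _ (MCls.prd hga) S.ov (Vb10.nrmUp_mono S.nrm (by omega))] at t3
  have p1 : (deg S.τ : ℂ) ≠ 0 := Nat.cast_ne_zero.2 S.pos'.ne'
  have p2 : (deg S.θ₀ : ℂ) ≠ 0 := Nat.cast_ne_zero.2 S.pos.ne'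
  refine ⟨(deg S.τ : ℂ)⁻¹ * ((-1) ^ (d₀ r.jU - 1) * deg S.θ₀), by simp [p1, p2], ?_⟩
  rw [mul_assoc, mul_assoc, ← t3, inv_mul_cancel_left₀ p1]

end Crest.Agent.X262.Cd62
end
end

-- ▼ part X262/Cb72/Whit
section

/-!
# Row 262, road B (helper72): the Whitney formula on tree-like configurations
-/

set_option autoImplicit false
set_option linter.unusedSectionVars false

noncomputable section

namespace Crest.Agent.X262.Cb72

open Crest.Agent.X277 Crest.Agent.X277.BD Crest.Agent.X277.BD.Cyc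
open Crest.Agent.X262.Hb Crest.Agent.X262.Vb Crest.Agent.X262.Tree87
open Crest.Agent.X262.Bub96 (Tr)
open Crest.Agent.X262.Node22 (chr chr_ne)

variable {J : Type} [Fintype J] [DecidableEq J] {io : J → Type} [∀ j, Fintype (io j)]
  [∀ j, DecidableEq (io j)] {A₀ A A' P Q I : Type} [Fintype A₀] [Fintype A] [Fintype A']
  [Fintype P] [Fintype Q] [Fintype I] {E E' : Type} [Field E] [Algebra ℂ E] [Field E']
  [Algebra ℂ E']

/-- the lines `O(kk b)` at the points -/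
def la (kk : P → J → ℕ) (z : Cfg io I E) : P × I → BD ℂ E := fun x => lw (kk x.1) (z.y x.2)


/-- exactness along all trees of degree `d` in the target -/
def ExT (T : Tgt io A₀) (d : J → ℕ) (γ' : P → A' → MvPolynomial (Vr io) ℂ)
    (γ : P → A → MvPolynomial (Vr io) ℂ) (ψ : Q → P → MvPolynomial (Vr io) ℂ) (n' n : ℕ) : Prop :=
  ∀ (k : Type) [Field k] [Algebra ℂ k] [IsAlgClosed k] (t : Tr k J io), t.OK → t.deg = d →
    (∀ x, T.On (t.ev x)) → ∀ x, Ex γ' γ ψ n' n (t.ev x)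

/-- the configuration and all its reductions are tree-like -/
def TLr (d : J → ℕ) (N : ℕ) (z : Cfg io I E) : Prop :=
  TL d N z ∧ ∀ V, TL d N (z.red (plV V))

theorem tl_geq {d : J → ℕ} {N : ℕ} {z z' : Cfg io I E} (h : Cfg.Geq z z') (hz : TL d N z) :
    TL d N z' := by
  obtain ⟨c, hc, rfl⟩ := h
  exact hz.gau hc

theorem tlr_red {K : Type} [Field K] [Algebra ℂ K] {d : J → ℕ} {N : ℕ} {ξ : Dat io d I K}
    (h : ξ.NrmUp N) (p : LP K E) : TLr d N (ξ.cfg.red p.toPl) :=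
  ⟨Bub96.tl_red h _, fun V => tl_geq (Cfg.red_comp p (LP.at V) fun _ => Bub96.nz_pt ξ _)
    (Bub96.tl_red h _)⟩


theorem TLr.mono {d : J → ℕ} {N N' : ℕ} {z : Cfg io I E} (hz : TLr d N z) (h : N' ≤ N) :
    TLr d N' z := ⟨hz.1.mono h, fun V => (hz.2 V).mono h⟩

variable {kk : P → J → ℕ} {k0 : A → J → ℕ} {k1 : A' → J → ℕ} {k2 : Q → J → ℕ}
  {γ : P → A → MvPolynomial (Vr io) ℂ} {γ' : P → A' → MvPolynomial (Vr io) ℂ}
  {ψ : Q → P → MvPolynomial (Vr io) ℂ} {T : Tgt io A₀} {d : J → ℕ} {N n' n : ℕ}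
  {z : Cfg io I E} {V : RZ ℂ E}

theorem nm_gau (hz : z.NZ) {c : I → J → E} (hc : ∀ q j, c q j ≠ 0) (V : RZ ℂ E) (σ : P × I → E) :
    nm (la kk (z.gau c)) V (fun x => chr (c x.2) (kk x.1) * σ x) = nm (la kk z) V σ := by
  rw [show la kk (z.gau c) = fun x => la kk z x + pr ℂ (chr (c x.2) (kk x.1)) from
    funext fun x => lw_scl (hz x.2) (hc x.2) _]
  exact nm_scl (c := fun x : P × I => chr (c x.2) (kk x.1)) (fun x => chr_ne (hc x.2) _) _ _ _

theorem mpL_gau (hψ : HZ k2 kk ψ) {c : I → J → E} (hc : ∀ q j, c q j ≠ 0) (σ : P × I → E) :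
    mpL ψ (z.gau c) (fun x => chr (c x.2) (kk x.1) * σ x) =
      fun x => chr (c x.2) (k2 x.1) * mpL ψ z σ x := by
  funext x
  have h1 := congrFun (hψ.mulVec_scl (hc x.2) (z.y x.2) fun b => σ (b, x.2)) x.1
  rw [← mpL_at] at h1
  exact (congrFun (mpL_at ψ (z.gau c) _ x.2) x.1).trans h1

theorem nm_le_one (hz : z.Pr V) {σ : P × I → E} : nm (la kk z) V σ ≤ 1 ↔ ∀ x, σ x ∈ V.1 := by
  simp only [nm_le, la, (hz _).val_lw, mul_one, RZ.le_one_iff]

theorem mpL_red {p : Pl ℂ E ℂ E'} (hp : Lnr p) (hz : z.Pr p.V) {σ : P × I → E}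
    (hσ : ∀ x, σ x ∈ p.V.1) (x : Q × I) : mpL ψ z σ x ∈ p.V.1 ∧
      p.r (mpL ψ z σ x) = mpL ψ (z.red0 p) (fun x => p.r (σ x)) x := by
  have h1 : ∀ b, pv (z.y x.2) (ψ x.1 b) ∈ p.V.1 := fun b => pv_mem (fun j => (hz x.2 j).1) _
  rw [mpL_apply, mpL_apply]
  refine ⟨sum_mem fun b _ => mul_mem (h1 b) (hσ _), ?_⟩
  rw [r_sum _ fun b _ => mul_mem (h1 b) (hσ _)]
  exact Finset.sum_congr rfl fun b _ => by
    rw [Pl.r_mul (h1 b) (hσ _), r_pv hp fun j => (hz x.2 j).1]; rfl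

theorem nm_mpL (hψ : HZ k2 kk ψ) (hz : z.NZ) (V : RZ ℂ E) (σ : P × I → E) :
    nm (la k2 z) V (mpL ψ z σ) ≤ nm (la kk z) V σ := by
  refine nm_le_of_one (U := ⊤) (fun x _ hx => ?_) trivial
  have hP := Cfg.pr_nrm hz V
  rw [← nm_gau hz (Cfg.nrm_ne V z), nm_le_one hP] at hx
  rw [← nm_gau hz (Cfg.nrm_ne V z), ← mpL_gau hψ (Cfg.nrm_ne V z), nm_le_one hP]
  exact fun y => (mpL_red (p := plV V) (lnr_plV V) hP hx y).1

section

variable (h : HZ kk k0 γ) (h' : HZ kk k1 γ') (hψ : HZ k2 kk ψ) (e : ExT T d γ' γ ψ n' n)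
  (hT : ∀ a j, T.k a j ≤ N) (hk : ∀ b j, (Fintype.card P + 1) ^ 2 * kk b j ≤ N)
  (hk2 : ∀ c j, (Fintype.card P + 1) * k2 c j ≤ N)
include h h' hψ e hT hk hk2

theorem ses (hz : TL d N z) (hO : z.On T) :
    (Rb kk γ z).map (mpL ψ z) = Rb k2 (mm ψ γ) z ∧
      Rb kk γ z ⊓ LinearMap.ker (mpL ψ z) = Rb kk γ' z := by
  obtain ⟨k, _, _, _, ⟨D⟩⟩ := hz
  exact D.ses h h' hψ (e k D.t D.ok D.deg (D.on hT hO)) (fun b j => le_of_succ_mul
    (m := Fintype.card P) (by rw [← mul_assoc, ← pow_two]; exact hk b j)) hk2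

theorem sur_pr (hz : TL d N z) (hP : z.Pr V) (hr : TL d N (z.red0 (plV V))) (hO : z.On T)
    {σ : P × I → E} (hσ : σ ∈ Rb kk γ z) : ∃ u ∈ Rb kk γ z, mpL ψ z u = mpL ψ z σ ∧
      nm (la kk z) V u ≤ nm (la k2 z) V (mpL ψ z σ) := by
  have hy : ∀ q j i, z.y q j i ∈ (plV V).V.1 := fun q j => (hP q j).1
  have hO' : (z.red0 (plV V)).On T := on_red0 (lnr_plV V) hy hO
  have s1 := (ses h h' hψ e hT hk hk2 hz hO).1
  have s2 := (ses h h' hψ e hT hk hk2 hr hO').1
  obtain ⟨k, _, _, _, ⟨D⟩⟩ := hz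
  obtain ⟨k', _, _, _, ⟨D'⟩⟩ := hr
  have e1 := e k D.t D.ok D.deg (D.on hT hO)
  have e2 := e k' D'.t D'.ok D'.deg (D'.on hT hO')
  have h1 := Rb_red0 (lnr_plV V) hy D D' h (fun x => (e1 x).r2) (fun x => (e2 x).r2) hk
  have h2 : redS (plV V) (Rb k2 (mm ψ γ) z) ≤ Rb k2 (mm ψ γ) (z.red0 (plV V)) :=
    redS_Rb_le (lnr_plV V) hy fun q =>
      (D'.ex_of h h' hψ (e2 (D'.sp q))).r3.trans (D.ex_of h h' hψ (e1 (D.sp q))).r3.symm
  refine sur_of_rank (p := LP.at V) (g := fun _ => 1) (fun x => ?_)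
    (fun x _ => nm_mpL hψ hP.nz V x) ?_ hσ
  · rw [map_one]; exact ((hP x.2).val_lw _).symm
  · rw [s1, ← Tree87.finrank_redS (plV V)]
    refine Submodule.finrank_mono (h2.trans ?_)
    rw [← s2, h1, redS, Submodule.map_span]
    refine Submodule.span_mono ?_
    rintro _ ⟨_, ⟨u, h3, h4, rfl⟩, rfl⟩
    refine ⟨u, h3, (nm_le_one hP).2 h4, funext fun x => ?_⟩
    rw [div_one]
    exact (mpL_red (lnr_plV V) hP h4 x).2.symm

theorem ont (hz : TLr d N z) (hO : z.On T) : Ont (la kk z) (la k2 z) (mpL ψ z) (Rb kk γ z) := by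
  refine ⟨fun V x _ => nm_mpL hψ hz.1.nz V x, fun V x hx => ?_⟩
  have hc := Cfg.nrm_ne V z
  have hc' : ∀ x : P × I, chr (z.nrm V x.2) (kk x.1) ≠ 0 := fun x => chr_ne (hc x.2) _
  have h1 : (fun y => chr (z.nrm V y.2) (kk y.1) * x y) ∈ Rb kk γ (z.gau (z.nrm V)) := by
    rw [h.Rb_gau hc]; exact ⟨x, hx, rfl⟩
  obtain ⟨u, h2, h3, h4⟩ := sur_pr h h' hψ e hT hk hk2 (hz.1.gau hc) (Cfg.pr_nrm hz.1.nz V)
    (hz.2 V) ((Cfg.on_gau T hc).2 hO) h1
  rw [h.Rb_gau hc] at h2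
  obtain ⟨u, h2, rfl⟩ := h2
  change mpL ψ _ (fun y => chr (z.nrm V y.2) (kk y.1) * u y) = _ at h3
  change nm _ V (fun y => chr (z.nrm V y.2) (kk y.1) * u y) ≤ _ at h4
  rw [mpL_gau hψ hc, nm_gau hz.1.nz hc, nm_gau hz.1.nz hc] at h4
  rw [mpL_gau hψ hc, mpL_gau hψ hc] at h3
  exact ⟨u, h2, funext fun y => mul_left_cancel₀ (chr_ne (hc y.2) _) (congrFun h3 y), h4⟩

/-- **Whitney formula** for an exact sequence of generated bundles along trees -/
theorem whit {B : Th} (hB : B.Ax) [Algebra.EssFiniteType ℂ E] (hz : TLr d N z) (hO : z.On T) :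
    B.cp (la kk z) (Rb kk γ z) =
      B.cp (la kk z) (Rb kk γ' z) * B.cp (la k2 z) (Rb k2 (mm ψ γ) z) := by
  obtain ⟨s1, s2⟩ := ses h h' hψ e hT hk hk2 hz.1 hO
  rw [hB.cp_whitney (ont h h' hψ e hT hk hk2 hz hO), s1, s2]

end

end Crest.Agent.X262.Cb72
end
end

-- ▼ part X262/Cb72/Sel
section

/-!
# Row 262, road B (helper72): coordinate projections of normal spaces
-/

set_option autoImplicit false
set_option linter.unusedSectionVars false

noncomputable section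

namespace Crest.Agent.X262.Cb72

open Crest.Agent.X277 Crest.Agent.X277.BD Crest.Agent.X277.BD.Cyc Polynomial
open Crest.Agent.X262.Hb Crest.Agent.X262.Vb Crest.Agent.X262.Tree87
open Crest.Agent.X262.Bub96 (Tr)
open Crest.Agent.X262.Bub96.Tr (dot)

variable {J : Type} [Fintype J] [DecidableEq J] {io : J → Type} [∀ j, Fintype (io j)]
  [∀ j, DecidableEq (io j)] {A₀ A A' P Q R I : Type} [Fintype A₀] [Fintype A] [Fintype A']
  [Fintype P] [Fintype Q] [Fintype R] [Fintype I] {E : Type} [Field E] [Algebra ℂ E]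

open Classical in
/-- the matrix which selects the coordinates `g c` -/
def sel (io : J → Type) (g : Q → P) : Q → P → MvPolynomial (Vr io) ℂ :=
  fun c b => if g c = b then 1 else 0

theorem hz_sel (kk : P → J → ℕ) (g : Q → P) : HZ (fun c => kk (g c)) kk (sel io g) := fun c b => by
  unfold sel
  split_ifs with h
  · subst h; exact MZ.one.congr fun j => by simp
  · exact MZ.zero _

theorem mulVec_sel (g : Q → P) (y : Pnt io E) (u : P → E) :
    (pM (sel io g) y).mulVec u = fun c => u (g c) := by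
  classical
  funext c
  simp [pM, sel, Matrix.mulVec, dotProduct, pv, apply_ite]

theorem mem_pK_sel {g : Q → P} {y : Pnt io E} {u : P → E} :
    u ∈ pK (sel io g) y ↔ ∀ c, u (g c) = 0 := by
  change (pM (sel io g) y).mulVec u = 0 ↔ _
  rw [mulVec_sel]; exact funext_iff

theorem mm_sel (g : Q → P) (γ : P → A → MvPolynomial (Vr io) ℂ) :
    mm (sel io g) γ = fun c => γ (g c) := by
  classical
  funext c a
  simp [mm, sel]

open Classical in
/-- the columns `ξ r` are deleted -/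
def cut (ξ : R → A) (γ : P → A → MvPolynomial (Vr io) ℂ) : P → A → MvPolynomial (Vr io) ℂ :=
  fun b a => if a ∈ Set.range ξ then 0 else γ b a

theorem hz_cut {kk : P → J → ℕ} {k0 : A → J → ℕ} {γ : P → A → MvPolynomial (Vr io) ℂ}
    (h : HZ kk k0 γ) (ξ : R → A) : HZ kk k0 (cut ξ γ) := fun b a => by
  unfold cut
  split_ifs
  · exact MZ.zero _
  · exact h b a

theorem mem_pR_cut {ξ : R → A} {γ : P → A → MvPolynomial (Vr io) ℂ} {y : Pnt io E} {u : P → E} :
    u ∈ pR (cut ξ γ) y ↔ ∃ w, (∀ r, w (ξ r) = 0) ∧ (pM γ y).mulVec w = u := by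
  classical
  constructor
  · rintro ⟨w, rfl⟩
    refine ⟨fun a => if a ∈ Set.range ξ then 0 else w a, fun r => if_pos ⟨r, rfl⟩, _root_.funext fun b =>
      Finset.sum_congr rfl fun a _ => ?_⟩
    by_cases ha : a ∈ Set.range ξ <;> simp [pM, cut, ha, pv]
  · rintro ⟨w, hw, rfl⟩
    refine ⟨w, _root_.funext fun b => Finset.sum_congr rfl fun a _ => ?_⟩
    by_cases ha : a ∈ Set.range ξ
    · obtain ⟨r, rfl⟩ := ha
      simp [hw]
    · simp [pM, cut, ha]

variable {B : Th} (hB : B.Ax) [Algebra.EssFiniteType ℂ E] {d : J → ℕ} {N n' n : ℕ} {z : Cfg io I E}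
include hB

/-- Whitney formula for a subsystem of equations -/
theorem whit_sel {T₀ : Tgt io A₀} {T : Tgt io A} {U : Tgt io A'} {g : A' → A}
    (hF : ∀ a, T.F (g a) = U.F a) (hg : ∀ a, T.k (g a) = U.k a) {kk : P → J → ℕ}
    {γ : A → P → MvPolynomial (Vr io) ℂ} (h : HZ T.k kk γ)
    (e : ExT T₀ d γ (jacP T) (sel io g) n' n) (hT : ∀ a j, T₀.k a j ≤ N)
    (hk : ∀ a j, (Fintype.card A + 1) ^ 2 * T.k a j ≤ N) (hz : TLr d N z) (hO : z.On T₀) :
    B.cp (z.ea T) (z.Eb T) = B.cp (z.ea T) (Rb T.k γ z) * B.cp (z.ea U) (z.Eb U) := by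
  have h1 := whit (hz_jac T) h (hz_sel T.k g) e hT hk (fun a j => le_of_succ_mul
    (m := Fintype.card A) (by rw [← mul_assoc, ← pow_two]; exact hk _ j)) hB hz hO
  rw [mm_sel, show (fun c => T.k (g c)) = U.k from _root_.funext hg,
    show (fun c => jacP T (g c)) = jacP U from _root_.funext fun c => _root_.funext fun v => by
      rw [jacP, jacP, hF]] at h1
  rw [Eb_eq, Eb_eq]
  exact h1

/-- rows which vanish on the range can be deleted -/
theorem cp_rows {kk : P → J → ℕ} {γ : P → A → MvPolynomial (Vr io) ℂ} {g : Q → P}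
    (hg : Function.Injective g) (h : ∀ b, b ∉ Set.range g → ∀ a, γ b a = 0) (z : Cfg io I E) :
    B.cp (la (fun c => kk (g c)) z) (Rb (fun c => kk (g c)) (fun c => γ (g c)) z) =
      B.cp (la kk z) (Rb kk γ z) := by
  classical
  have h0 : ∀ (y : Pnt io E) (w : A → E) b, b ∉ Set.range g → (pM γ y).mulVec w b = 0 :=
    fun y w b hb => Finset.sum_eq_zero fun a _ => by simp [pM, h b hb a, pv]
  rw [← hB.cp_funLeft (a := la kk z) (U := Rb kk γ z) (g := Prod.map g id) fun x hx i hi => ?_]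
  · congr 1
    ext σ
    constructor
    · intro hσ
      obtain ⟨h1, h2⟩ := mem_Rb.1 hσ
      refine ⟨fun x => Function.extend g (fun c => σ (c, x.2)) 0 x.1,
        mem_Rb.2 ⟨fun b => ?_, fun q => ?_⟩, _root_.funext fun x =>
          hg.extend_apply (fun c => σ (c, x.2)) 0 x.1⟩
      · by_cases hb : b ∈ Set.range g
        · obtain ⟨c, rfl⟩ := hb
          simp only [hg.extend_apply]
          exact h1 c
        · simp only [Function.extend_apply' _ _ _ hb]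
          exact zero_mem _
      · obtain ⟨w, hw⟩ := h2 q
        refine ⟨w, _root_.funext fun b => ?_⟩
        by_cases hb : b ∈ Set.range g
        · obtain ⟨c, rfl⟩ := hb
          simp only [hg.extend_apply]
          exact congrFun hw c
        · simp only [Function.extend_apply' _ _ _ hb]
          exact h0 _ w b hb
    · rintro ⟨σ, hσ, rfl⟩
      obtain ⟨h1, h2⟩ := mem_Rb.1 hσ
      refine mem_Rb.2 ⟨fun c => h1 (g c), fun q => ?_⟩
      obtain ⟨w, hw⟩ := h2 q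
      exact ⟨w, _root_.funext fun c => congrFun hw (g c)⟩
  · obtain ⟨w, hw⟩ := (mem_Rb.1 hx).2 i.2
    refine (congrFun hw i.1).symm.trans (h0 _ w _ ?_)
    rintro ⟨c, hc⟩
    exact hi ⟨(c, i.2), Prod.ext hc rfl⟩

/-- sections of a sum of trivial line bundles -/
theorem cp_Am {κ : J → ℕ} {s : I → E} (hV : z.V κ = E ∙ s) (h0 : s ≠ 0)
    (hs : ∀ q V, (lw κ (z.y q)).val V = V.v (s q)) :
    B.cp (la (fun _ : R => κ) z) (Am (fun _ : R => κ) z) = (-X) ^ Fintype.card R := by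
  obtain ⟨q₀, -⟩ := Function.ne_iff.1 h0
  have h1 : ∀ q, s q ≠ 0 := fun q h => val_ne _ (RZ.top ℂ E) (by rw [hs q, h, map_zero])
  let φ : (R → E) →ₗ[E] (R × I → E) := LinearMap.pi fun x => s x.2 • LinearMap.proj x.1
  have h2 : Am (fun _ : R => κ) z = (⊤ : Submodule E (R → E)).map φ := by
    ext σ
    simp only [mem_Am, hV, Submodule.mem_span_singleton]
    constructor
    · intro h
      choose a ha using h
      exact ⟨a, trivial, _root_.funext fun x => (mul_comm _ _).trans (congrFun (ha x.1) x.2)⟩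
    · rintro ⟨a, -, rfl⟩ r
      exact ⟨a r, _root_.funext fun q => mul_comm _ _⟩
  rw [h2, hB.cp_iso (a := fun _ => 0) fun V x _ => nm_congr fun c => ?_, hB.cp_top]
  · simp
  · have h3 : ∀ y : R × I, V.v (φ x y) ≤ c * (la (fun _ : R => κ) z y).val V ↔
        V.v (x y.1) ≤ c * (0 : BD ℂ E).val V := fun y => by
      change V.v (s y.2 * x y.1) ≤ c * (lw κ (z.y y.2)).val V ↔ _
      rw [hs, map_mul, mul_comm, val_zero, mul_one,
        mul_le_mul_iff_left₀ (zero_lt_iff.2 (RZ.ne_zero_iff.2 (h1 _)))]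
    simp only [h3]
    exact ⟨fun h r => h (r, q₀), fun h y => h y.1⟩

end Crest.Agent.X262.Cb72
end
end

-- ▼ part X262/Cb72/Main
section

/-!
# Row 262, road B (helper72): the common kernel at the concave end
-/

set_option autoImplicit false
set_option linter.unusedSectionVars false

noncomputable section

namespace Crest.Agent.X262.Cb72

open Crest.Agent.X277 Crest.Agent.X277.BD Crest.Agent.X277.BD.Cyc
open Crest.Agent.X262.Hb Crest.Agent.X262.Vb Crest.Agent.X262.Tree87 Crest.Agent.X262.Conc78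
open Crest.Agent.X262.End66 (dp dp_mul jac_eq pv_mul)
open Crest.Agent.X262.Bub96.Tr (dot)

variable {J : Type} [Fintype J] [DecidableEq J] {io : J → Type} [∀ j, Fintype (io j)]
  [∀ j, DecidableEq (io j)] {A A' P Q I : Type} [Fintype A] [Fintype A'] [Fintype P] [Fintype Q]
  [Fintype I] {E : Type} [Field E] [Algebra ℂ E]


theorem dp_X (y : Pnt io E) (w : Vr io → E) (v : Vr io) : dp y w (MvPolynomial.X v) = w v := by
  classical
  simp [dp, pv, MvPolynomial.pderiv_X, Pi.single_apply, apply_ite]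

theorem dp_sub (y : Pnt io E) (w : Vr io → E) (p q : MvPolynomial (Vr io) ℂ) :
    dp y w (p - q) = dp y w p - dp y w q := by
  simp only [dp, pv, map_sub, sub_mul, Finset.sum_sub_distrib]

theorem mulVec_wdM [DecidableEq P] (t : P → MvPolynomial (Vr io) ℂ) (y : Pnt io E) (a : P → E)
    (b : P × P) : (pM (wdM t) y).mulVec a b = a b.1 * pv y (t b.2) - a b.2 * pv y (t b.1) := by
  have h : ∀ x, pM (wdM t) y b x = (if x = b.1 then pv y (t b.2) else 0) -
      if x = b.2 then pv y (t b.1) else 0 := fun x => by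
    simp only [pM, wdM, pv, map_sub]
    split_ifs <;> simp
  simp [Matrix.mulVec, dotProduct, h, mul_sub, Finset.sum_sub_distrib, mul_comm]

theorem exists_of_wedge {a s : P → E} {p : P} (hp : s p ≠ 0) (h : ∀ b b', a b * s b' = a b' * s b) :
    ∃ l : E, l • s = a :=
  ⟨a p / s p, funext fun b => by
    rw [Pi.smul_apply, smul_eq_mul, div_mul_eq_mul_div, h, mul_div_cancel_right₀ _ hp]⟩

theorem rank_wdM [DecidableEq P] {t : P → MvPolynomial (Vr io) ℂ} {y : Pnt io E} {p : P}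
    (hp : pv y (t p) ≠ 0) : Module.finrank E (pR (wdM t) y) + 1 = Fintype.card P := by
  have h : pK (wdM t) y = E ∙ fun b => pv y (t b) := by
    ext a
    rw [Submodule.mem_span_singleton]
    constructor
    · exact fun h => exists_of_wedge hp fun b b' =>
        sub_eq_zero.1 ((mulVec_wdM t y a (b, b')).symm.trans (congrFun h (b, b')))
    · rintro ⟨l, rfl⟩
      exact funext fun b => (mulVec_wdM t y _ b).trans (by simp; ring)
  rw [← finrank_pR_add_pK (wdM t) y, h, finrank_span_singleton (Function.ne_iff.2 ⟨p, hp⟩)]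

theorem rank_rows {γ : P → A → MvPolynomial (Vr io) ℂ} {g : Q → P}
    (h : ∀ b, b ∉ Set.range g → ∀ a, γ b a = 0) (y : Pnt io E) :
    Module.finrank E (pR γ y) = Module.finrank E (pR (fun c => γ (g c)) y) := by
  have h1 : pK γ y = pK (fun c => γ (g c)) y := by
    ext w
    refine ⟨fun hw => funext fun c => congrFun hw (g c), fun hw => funext fun b => ?_⟩
    by_cases hb : b ∈ Set.range g
    · obtain ⟨c, rfl⟩ := hb
      exact congrFun hw c
    · exact Finset.sum_eq_zero fun a _ => by simp [pM, h b hb a, pv]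
  have h2 := finrank_pR_add_pK γ y
  have h3 := finrank_pR_add_pK (fun c => γ (g c)) y
  rw [h1] at h2
  omega

theorem rank_sel (γ : P → A → MvPolynomial (Vr io) ℂ) (g : Q → P) (y : Pnt io E) :
    Module.finrank E (pR (fun c => γ (g c)) y) +
      Module.finrank E (pR γ y ⊓ pK (sel io g) y : Submodule E (P → E)) =
      Module.finrank E (pR γ y) := by
  rw [← mm_sel, pR_mm]
  exact finrank_map_add_inf _ _

variable (n : Cn io) (T : Tgt io A)

/-- the variables `ξ_p` -/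
def xv (p : n.KL) : Vr io := ⟨n.jC, n.f (some p)⟩

theorem xv_inj : Function.Injective (xv n) := fun _ _ h =>
  Option.some_injective _ (n.f.injective (eq_of_heq (Sigma.mk.inj h).2))

theorem exists_xv (a : n.KL → E) : ∃ w : Vr io → E, ∀ p, w (xv n p) = a p :=
  ⟨Function.extend (xv n) a 0, fun p => (xv_inj n).extend_apply a 0 p⟩

variable {y : Pnt io E}

theorem dp_xT (w : Vr io → E) (p : n.KL) : dp y w (n.xT.F p) = w (xv n p) := dp_X y w _

theorem dp_uT (h : n.xT.On y) (w : Vr io → E) (b : n.KL × n.KL) : dp y w (n.uT.F b) =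
    w (xv n b.1) * pv y (n.tp b.2) - w (xv n b.2) * pv y (n.tp b.1) := by
  have h0 : ∀ p, pv y (n.xi p) = 0 := h
  have h1 : ∀ p, dp y w (n.xi p) = w (xv n p) := dp_xT n w
  change dp y w (n.xi b.1 * n.tp b.2 - n.xi b.2 * n.tp b.1) = _
  rw [dp_sub, dp_mul, dp_mul, h0, h0, h1, h1]
  ring

theorem pR_xT (y : Pnt io E) : pR (jacP n.xT) y = ⊤ :=
  eq_top_iff.2 fun a _ => by
    obtain ⟨w, hw⟩ := exists_xv n a
    exact ⟨w, funext fun p => (dp_xT n w p).trans (hw p)⟩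

theorem pR_uT (h : n.xT.On y) : pR (jacP n.uT) y = pR (wdM n.tp) y := by
  ext u
  constructor
  · rintro ⟨w, rfl⟩
    exact ⟨fun p => w (xv n p), funext fun b => (mulVec_wdM _ _ _ b).trans (dp_uT n h w b).symm⟩
  · rintro ⟨a, rfl⟩
    obtain ⟨w, hw⟩ := exists_xv n a
    exact ⟨w, funext fun b => (dp_uT n h w b).trans (by
      rw [hw, hw]; exact (mulVec_wdM _ _ _ b).symm)⟩

theorem exists_tp (hy : NZ y) : ∃ p, pv y (n.tp p) ≠ 0 := by
  obtain ⟨k, hk⟩ := hy n.jU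
  obtain ⟨l, hl⟩ := hy n.jS
  exact ⟨(k, l), by simpa [Cn.tp, pv] using ⟨hk, hl⟩⟩

theorem ex_D (y : Pnt io E) : pR (jacP (n.TD T)) y ⊓ pK (sel io Sum.inr) y =
    pR (cut (xv n) (jacP (n.TD T))) y := by
  ext u
  rw [Submodule.mem_inf, mem_pK_sel, mem_pR_cut]
  constructor
  · rintro ⟨⟨w, rfl⟩, h⟩
    exact ⟨w, fun p => (dp_xT n w p).symm.trans (h p), rfl⟩
  · rintro ⟨w, h, rfl⟩
    exact ⟨⟨w, rfl⟩, fun p => (dp_xT n w p).trans (h p)⟩

theorem ex_B (hv : n.Nv T) (hy : NZ y) (hO : (n.TD T).On y) :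
    pR (jacP (n.TB T)) y ⊓ pK (sel io Sum.inr) y = pR (cut (xv n) (jacP (n.TB T))) y := by
  have hx : n.xT.On y := fun p => hO (.inr p)
  ext u
  rw [Submodule.mem_inf, mem_pK_sel, mem_pR_cut]
  constructor
  · rintro ⟨⟨w, rfl⟩, h⟩
    obtain ⟨w₀, h1, h2⟩ := hv E y hy (by
      rintro (a | p)
      · exact hO (.inl (.inl a))
      · exact hx p)
    obtain ⟨p, hp⟩ := exists_tp n hy
    obtain ⟨l, hl⟩ := exists_of_wedge (a := fun p => w (xv n p)) (s := fun p => pv y (n.tp p)) hp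
      fun b b' => sub_eq_zero.1 ((dp_uT n hx w (b, b')).symm.trans (h (b, b')))
    have h3 : (pM (jacP (n.TB T)) y).mulVec w₀ = 0 := funext fun a => by
      rcases a with a | b
      · exact (jac_eq T y w₀ a).symm.trans (congrFun h1 a)
      · refine (dp_uT n hx w₀ b).trans ?_
        rw [show w₀ (xv n b.1) = _ from h2 _, show w₀ (xv n b.2) = _ from h2 _, mul_comm, sub_self]
        rfl
    refine ⟨w - l • w₀, fun p => ?_, ?_⟩
    · rw [Pi.sub_apply, Pi.smul_apply, show w₀ (xv n p) = _ from h2 _]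
      exact sub_eq_zero.2 (congrFun hl p).symm
    · rw [Matrix.mulVec_sub, Matrix.mulVec_smul, h3, smul_zero, sub_zero]
      rfl
  · rintro ⟨w, h, rfl⟩
    exact ⟨⟨w, rfl⟩, fun b => (dp_uT n hx w b).trans (by rw [h, h, zero_mul, zero_mul, sub_self])⟩

theorem rows_D (b : (A ⊕ n.KL × n.KL) ⊕ n.KL) (hb : b ∉ Set.range Sum.inl) (v : Vr io) :
    cut (xv n) (jacP (n.TD T)) b v = 0 := by
  classical
  rcases b with b | p
  · exact (hb ⟨b, rfl⟩).elim
  · unfold cut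
    split_ifs with h
    · rfl
    · exact MvPolynomial.pderiv_X_of_ne fun e => h ⟨p, e⟩

variable {c : ℕ} {d : J → ℕ}

theorem exT_B (hR : End66.Rk (n.TB T) c d) (hv : n.Nv T) :
    ExT (n.TD T) d (cut (xv n) (jacP (n.TB T))) (jacP (n.TB T)) (sel io Sum.inr)
      (c - (Fintype.card n.KL - 1)) c := by
  intro k _ _ _ t ht hd hO x
  have h1 := hR k t ht hd (fun x a => hO x (.inl a)) x
  have h2 := ex_B n T hv (nz_ev t ht x) (hO x)
  have h3 : Module.finrank k (pR (jacP n.uT) (t.ev x)) + _ = _ :=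
    rank_sel (jacP (n.TB T)) Sum.inr (t.ev x)
  obtain ⟨p, hp⟩ := exists_tp n (nz_ev t ht x)
  have h4 := rank_wdM hp
  rw [← pR_uT n fun p => hO x (.inr p)] at h4
  rw [Nm_eq] at h1
  rw [h2, h1] at h3
  exact ⟨by omega, h1, h2⟩

theorem exT_D (hR : End66.Rk (n.TB T) c d) (hv : n.Nv T) :
    ExT (n.TD T) d (cut (xv n) (jacP (n.TD T))) (jacP (n.TD T)) (sel io Sum.inr)
      (c - (Fintype.card n.KL - 1)) (Fintype.card n.KL + (c - (Fintype.card n.KL - 1))) := by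
  intro k _ _ _ t ht hd hO x
  have h1 := (rank_rows (rows_D n T) (t.ev x)).trans (exT_B n T hR hv k t ht hd hO x).r1
  have h3 : Module.finrank k (pR (jacP n.xT) (t.ev x)) + _ = _ :=
    rank_sel (jacP (n.TD T)) Sum.inr (t.ev x)
  rw [ex_D, h1, pR_xT, finrank_top, Module.finrank_fintype_fun_eq_card] at h3
  exact ⟨h1, h3.symm, ex_D n T _⟩

theorem K0_eq (z : Cfg io I E) : n.K0 T z = Rb (n.TD T).k (cut (xv n) (jacP (n.TD T))) z := by
  ext σ
  simp only [Cn.K0, Eb_eq, Submodule.mem_inf, mem_Rb, ← ex_D, mem_pK_sel, LinearMap.mem_ker,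
    funext_iff, forall_and, and_assoc]
  exact and_congr_right fun _ => and_congr_right fun _ =>
    ⟨fun h q p => h (p, q), fun h x => h x.2 x.1⟩

theorem cp_xT {B : Th} (hB : B.Ax) [Algebra.EssFiniteType ℂ E] {z : Cfg io I E} (hd : d n.jC = 0)
    (hz : TL d 1 z) (hO : z.On n.xT) :
    B.cp (z.ea n.xT) (z.Eb n.xT) = (-Polynomial.X) ^ Fintype.card n.KL := by
  have hk : ∀ j, n.kx j ≤ 1 := fun j => by
    rw [Cn.kx, Pi.single_apply]; split_ifs <;> simp
  have h0 : ∀ q p, z.y q n.jC (n.f (some p)) = 0 := fun q p => by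
    simpa [Cn.xT, Cn.xi, pv] using hO q p
  have h1 : ∀ q V, (lw n.kx (z.y q)).val V = V.v (z.y q n.jC (n.f none)) := fun q V => by
    obtain ⟨i, hi⟩ := exists_ln (hz.nz q) n.jC V
    obtain ⟨i, rfl⟩ := n.f.surjective i
    rw [Cn.kx, lw_single, ← hi]
    rcases i with _ | p
    · rfl
    · exact (val_ne _ V (by rw [← hi, h0, map_zero])).elim
  have h2 : Module.finrank E (z.V n.kx) = 1 := by
    rw [hz.finrank_V hk]
    simp [dot, Cn.kx, Pi.single_apply, hd]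
  have h3 : (fun q => z.y q n.jC (n.f none)) ∈ z.V n.kx := by
    simpa [pv, Cn.kx] using hz.pv_mem_V (mh_vr n.jC (n.f none)) hk
  have h4 : (fun q => z.y q n.jC (n.f none)) ≠ 0 := by
    obtain ⟨u, -, hu⟩ := Submodule.exists_mem_ne_zero_of_ne_bot (p := z.V n.kx) fun h => by
      rw [h, finrank_bot] at h2
      exact zero_ne_one h2
    obtain ⟨q, -⟩ := Function.ne_iff.1 hu
    exact Function.ne_iff.2 ⟨q, fun h => val_ne _ (RZ.top ℂ E) (by
      rw [h1 q, show z.y q n.jC (n.f none) = 0 from h, map_zero])⟩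
  have h5 : z.Eb n.xT = Am (fun _ : n.KL => n.kx) z := by
    rw [Eb_eq, ← Rb_idM]
    exact Rb_congr fun q => (pR_xT n _).trans (pR_idM _).symm
  rw [h5]
  exact cp_Am hB (Submodule.eq_of_le_of_finrank_eq
    ((Submodule.span_singleton_le_iff_mem _ _).2 h3) (by rw [finrank_span_singleton h4, h2])).symm
    h4 h1

/-- **CONC (b)** -/
theorem bStmt : BStmt := by
  intro B hB J _ _ io _ _ A _ n T c d hd hR hv
  obtain ⟨N₁, h1⟩ := End66.exists_bound (n.TB T) ((Fintype.card (A ⊕ n.KL × n.KL) + 1) ^ 2)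
  obtain ⟨N₂, h2⟩ := End66.exists_bound (n.TD T)
    ((Fintype.card ((A ⊕ n.KL × n.KL) ⊕ n.KL) + 1) ^ 2)
  refine ⟨N₁ + N₂ + 1, fun ξ hξ p z hz hO => ?_⟩
  have h3 := hz ▸ tlr_red hξ p
  have h4 : ∀ a j, (n.TD T).k a j ≤ N₁ + N₂ + 1 := fun a j =>
    ((Nat.le_mul_of_pos_left _ (by positivity)).trans (h2 a j)).trans (by omega)
  have hx : z.On n.xT := fun q p => hO q (.inr p)
  have h5 := whit_sel hB (T := n.TB T) (U := n.uT) (g := Sum.inr) (fun _ => rfl) (fun _ => rfl)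
    (hz_cut (hz_jac _) _) (exT_B n T hR hv) h4 (fun a j => (h1 a j).trans (by omega)) h3 hO
  have h6 := whit_sel hB (T := n.TD T) (U := n.xT) (g := Sum.inr) (fun _ => rfl) (fun _ => rfl)
    (hz_cut (hz_jac _) _) (exT_D n T hR hv) h4 (fun a j => (h2 a j).trans (by omega)) h3 hO
  have h7 : z.Eb n.uT = n.HQ z := (Eb_eq _ _).trans (Rb_congr fun q => pR_uT n (hx q))
  rw [cp_xT n hB hd.C (h3.1.mono (by omega)) hx] at h6
  rw [h7] at h5
  rw [K0_eq]
  refine ⟨h5.trans (congrArg (· * _) ?_), h6⟩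
  exact cp_rows hB (kk := (n.TD T).k) Sum.inl_injective (rows_D n T) z

end Crest.Agent.X262.Cb72
end
end

-- ▼ part X262/Read67/Top
section

/-!
# Row 262, road B (helper67): the top coefficient of the product end

* `two_glob` : cutting by the zero scheme of a section of a global bundle;
* `rn_tow`, `rn_pgen`, `sm_rel` : integration along projective spaces;
* `cpV_red`, `cpz_TP`, `cp_xT` : the Chern polynomial of the product end;
* `topStmt`.
-/

set_option autoImplicit false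
set_option linter.unusedSectionVars false
set_option maxHeartbeats 400000

noncomputable section

namespace Crest.Agent.X262.Read67

open Crest.Agent.X277 Crest.Agent.X277.BD Crest.Agent.X277.Pst Crest.Agent.X277.BD.Cyc Polynomial
open Crest.Agent.X262.Geo Crest.Agent.X262.Hb Crest.Agent.X262.Vb
open Crest.Agent.X262.Conc78 (Cd)
open Crest.Agent.X262.Cd62 (TP pd)
open Crest.Agent.X262.Sym65 (PF PX Liv LivX Sup sm cf i1 qv)
open Crest.Agent.X262.Div (rn bnum_rn exists_lam tower_ind rn_tower finsum_rel itg_rn cw)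
open Crest.Agent.X262.Bub96.Tr (dot)

variable {K L F E : Type} [Field K] [Algebra ℂ K] [Algebra.EssFiniteType ℂ K] [Field L]
  [Algebra ℂ L] [Algebra.EssFiniteType ℂ L] [Field F] [Algebra ℂ F] [Algebra.EssFiniteType ℂ F]
  [Field E] [Algebra ℂ E] [Algebra.EssFiniteType ℂ E] {B : Th}

/-- a global class as a family -/
abbrev gl (x : B.H K) : PF B K := fun _ _ _ p => B.pb p x

/-- a global polynomial as a family -/
abbrev glX (x : (B.H K)[X]) : PX B K := fun E _ _ p => x.map (B.pb p : B.H K →+* B.H E)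

/-- the second bundle is global -/
theorem two_glob (hB : B.Ax) {D H : BD ℂ K} (hD : 0 ≤ D) (hH : 0 ≤ H) {P : PX B K} {ψ : PF B K}
    {R : (B.H K)[X]} (hP : LivX B (Sup D) P) (hψ : Liv B (Sup D) ψ)
    (h1 : ∀ (E : Type) [Field E] [Algebra ℂ E] [Algebra.EssFiniteType ℂ E] (p : LP K E),
      p.V ∈ Sup D → Sym65.pv P (cf B D) E p = 0) (h2 : R.eval (B.c1 H) = 0) :
    sm (D ⊓ H) (i1 (qv (P * glX R) (cf B (D ⊓ H)) * ψ)) =
      sm D (i1 (qv P (cf B D) * gl (R.eval 0) * ψ)) := by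
  have s : Sup (D ⊓ H) ⊆ Sup D := by
    rw [Sym65.sup_inf hD hH]
    exact Set.inter_subset_left
  have h3 : ∀ (E : Type) [Field E] [Algebra ℂ E] (p : LP K E),
      Sym65.pv (glX R) (cf B H) E p = 0 := fun E _ _ p =>
    (pb_eval p R _).symm.trans (by rw [h2, map_zero])
  have h4 : Sym65.pv (glX R) 0 = gl (R.eval 0) := by
    funext E _ _ p
    rw [gl, pb_eval, map_zero]
    rfl
  have h5 : cf B H * qv (glX R) (cf B H) = gl (R.eval 0) := by
    funext E _ _ p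
    rw [← h4, ← sub_zero (Sym65.pv (glX R) 0 E p), ← h3 E p]
    exact Sym65.eval_divX _ _
  rw [Sym65.two hB hD hH (hP.mono s) (LivX.glob hB R) (hψ.mono s)
    (fun E _ _ _ p hp => h1 E p (s hp)) (fun E _ _ _ p _ _ => h3 E p), h4]
  refine Vb.sm_congr fun V hV h6 => ?_
  split_ifs with h7
  · rw [← Sym65.i1_cf hB (((hP.qv (Liv.cf hB D)).mul
      ((LivX.glob hB R).qv (Liv.cf hB H))).mul hψ) hV h6 h7, ← h5]
    congr 1
    ring
  · rfl

theorem rn_tow (α : K →ₐ[ℂ] L) (β : L →ₐ[ℂ] F) {l : List (BD ℂ L)}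
    (h : l.length + dim ℂ K = dim ℂ L) (l' : List (BD ℂ F)) :
    rn (β.comp α) (l' ++ l.map (pb β)) = rn α l * rn β l' := by
  obtain ⟨lam, h1, h2⟩ := exists_lam ℂ K
  have h3 := bnum_rn β l' (lam := l ++ lam.map (pb α)) (by simp [h1, h])
  rw [bnum_rn α l h1, List.map_append, List.map_map,
    show pb β ∘ pb α = pb (β.comp α) from funext (BD.pb_pb β α), ← List.append_assoc,
    bnum_rn _ _ h1] at h3
  exact mul_left_cancel₀ h2 (h3.trans (by ring))

/-- the degree of a projective space -/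
theorem rn_pgen {X : Type} [Fintype X] {θ : K →ₐ[ℂ] F} {μ : X → F} (g : PGen θ μ) {n : ℕ}
    (hn : Fintype.card X = n + 1) : rn θ (List.replicate n (mxf ℂ μ)) = 1 := by
  induction θ using tower_ind with
  | h =>
    let e := (Fintype.equivFinOfCardEq hn).symm
    have h1 := g.dm
    rw [hn, Loc.dim_tower ℂ K F] at h1
    rw [rn_tower, List.map_replicate, ← End66.mxf_congr (e.surjective.range_comp μ), up_mxf]
    refine Tr89.bnum_proj (g.ne _) (eq_top_iff.2 fun x _ => ?_) (by omega)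
    let G := IntermediateField.adjoin K (Set.range fun i : Fin n => (μ ∘ e) i.succ / (μ ∘ e) 0)
    have h2 : ∀ x, μ x / μ (e 0) ∈ G := e.surjective.forall.2 fun i => by
      refine Fin.cases ?_ (fun i => IntermediateField.subset_adjoin _ _ ⟨i, rfl⟩) i
      rw [div_self (g.ne _)]
      exact one_mem _
    have h3 : (⊤ : IntermediateField ℂ F) ≤ G.restrictScalars ℂ := by
      rw [← g.gen, IntermediateField.adjoin_le_iff]
      rintro _ (⟨a, rfl⟩ | ⟨a, b, rfl⟩)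
      · exact G.algebraMap_mem a
      · rw [← div_div_div_cancel_right₀ (g.ne (e 0))]
        exact div_mem (h2 a) (h2 b)
    exact h3 IntermediateField.mem_top

variable {J : Type} [Fintype J] [DecidableEq J] {io : J → Type} [∀ j, Fintype (io j)]
  [∀ j, DecidableEq (io j)] {J₀ : Type} [Fintype J₀] [DecidableEq J₀] {io₀ : J₀ → Type}
  [∀ j, Fintype (io₀ j)] [∀ j, DecidableEq (io₀ j)] {A A₀ I M : Type} [Fintype A] [Fintype A₀]
  [Fintype I]

theorem sm_rel (hB : B.Ax) {T : Tgt io A} {Φ : MFam B io M} (hΦ : MCls B T Φ) (θ : K →ₐ[ℂ] L)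
    {z : Cfg io I K} (hz : z.NZ) (m : M → I) {l : List (BD ℂ L)}
    (hl : l.length + dim ℂ K ≤ dim ℂ L) :
    (sm ((z.map θ).dv T) fun W => B.itg (Rf W)
      (B.pb (LP.at W) (Tr89.pc B l) * trm B T (z.map θ) m Φ W)) = rn θ l * vir B T z m Φ := by
  rw [Cfg.dv_map]
  refine finsum_rel θ l _ _ _ fun W hW hV h0 => ?_
  have := essFT_Rf hW
  have := essFT_Rf hV
  have h1 := Val40.dim_rf hW hV.ne_top
  rw [Tr89.pb_pc hB, Div.trm_map hB hΦ θ hz m hW hV h0,
    itg_rn hB _ _ (by rw [List.length_map]; omega), cw]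
  rfl

theorem hc_red (hB : B.Ax) {z : Cfg io I K} (hz : z.NZ) (p : LP K E) (j : J) (q : I) :
    hc B j E ((z.red p.toPl).y q) = B.pb p (hc B j K (z.y q)) :=
  ((cls_hc (T := (⟨Empty.elim, Empty.elim, fun a => a.elim⟩ : Tgt io Empty)) hB j).at ()).red
    (m := fun _ => q) p hz fun _ a => a.elim

/-- the ambient bundle is global -/
theorem cpV_red (hB : B.Ax) (T : Tgt io A) {z : Cfg io I K} (hz : z.NZ) (p : LP K E) :
    B.cp ((z.red p.toPl).ea T) ((z.red p.toPl).Vt T) =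
      (B.cp (z.ea T) (z.Vt T)).map (B.pb p : B.H K →+* B.H E) := by
  have hP := Cfg.pr_nrm hz p.V
  have hc := Cfg.nrm_ne p.V z
  rw [← hB.cp_dia (fun x : A × I => Node22.chr_ne (hc x.2) _) (congrFun (Cfg.ea_gau T hz hc))
    (z.Vt T), hB.cp_rd (hP.val_ea T), Cfg.red, Cfg.ea_red0 T hP, ← Cfg.redS_Vt, Cfg.Vt_gau T hc]
  rfl

variable (r : Cd io₀ io) {T : Tgt io₀ A₀}

theorem cpz_TP (hB : B.Ax) (z : Cfg io I E) : cpz B (TP r T) z =
    cpz B T (Cd62.pc r z) * B.cp (z.ea r.cn.xT) (z.Vt r.cn.xT) := by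
  let e := Equiv.sumProdDistrib A₀ r.cn.KL I
  rw [cpz, cpz, ← hB.cp_dsum,
    ← hB.cp_funLeft (g := e.symm) fun _ _ i hi => (hi (e.symm.surjective i)).elim]
  congr 1
  · funext x
    rcases x with x | x
    · exact Cd62.ea_inl r z _ _
    · rfl
  · ext u
    rw [mem_dsum, Node22.mem_Vt]
    refine ⟨?_, fun hu => ⟨fun x => u (e x), (Cd62.mem_Eb_TP r).2 hu,
      funext fun x => congrArg u (Equiv.apply_symm_apply _ x)⟩⟩
    rintro ⟨σ, hσ, rfl⟩
    exact (Cd62.mem_Eb_TP r).1 hσ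

theorem dv_tgt (z : Cfg io I E) : z.dv (r.tgt T) = (Cd62.pc r z).dv T := by
  rw [Cfg.dv, Cfg.dv]
  congr 2
  · exact funext fun _ => r.pv_rename _ _
  · exact funext fun _ => Cd62.lw_up r _ _

variable {d₀ : J₀ → ℕ} (ξ : Dat io₀ d₀ I K) {μ : io r.cn.jS → K} {ζ : io r.cn.jC → K}
  (hμ : ∃ i, μ i ≠ 0) (hζ : ∃ i, ζ i ≠ 0)

theorem pc_dat : Cd62.pc r (dat r ξ μ ζ hμ hζ).cfg = ξ.cfg := by
  rw [← Cd62.pd_cfg]
  congr 1
  exact congrArg (fun f => Dat.mk f.1 ξ.x f.2)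
    (Subtype.ext (pr_tri r ξ.f _ _) : (⟨_, (pd r (dat r ξ μ ζ hμ hζ)).cp⟩ : {f // Cp d₀ f}) =
      ⟨_, ξ.cp⟩)

theorem y_C (q : I) : (dat r ξ μ ζ hμ hζ).cfg.y q r.cn.jC = ζ :=
  (congrFun (dat_pt r ξ hμ hζ _) _).trans (tri_C r _ _ _)

theorem y_S (q : I) : (dat r ξ μ ζ hμ hζ).cfg.y q r.cn.jS = μ :=
  (congrFun (dat_pt r ξ hμ hζ _) _).trans (tri_S r _ _ _)

theorem mem_V_zero {d κ : J → ℕ} (η : Dat io d I K) (h : dot κ d = 0) {u : I → K} :
    u ∈ η.cfg.V κ ↔ ∃ c, ∀ q, u q = c := by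
  have h1 : ∀ (c : K) (t : Option K), Bub96.hv 0 (C c) t = c := fun c t => by
    cases t <;> simp [Bub96.hv]
  change u ∈ (degreeLE K (dot κ d : ℕ)).map (η.evl (dot κ d)) ↔ _
  rw [h]
  refine ⟨?_, fun ⟨c, hc⟩ => ⟨C c, mem_degreeLE.2 degree_C_le, funext fun q =>
    (h1 c _).trans (hc q).symm⟩⟩
  rintro ⟨σ, hσ, rfl⟩
  exact ⟨_, fun q => by rw [eq_C_of_degree_le_zero (mem_degreeLE.1 hσ)]; exact h1 _ _⟩

theorem cp_xT (hB : B.Ax) (q₀ : I) :
    B.cp ((dat r ξ μ ζ hμ hζ).cfg.ea r.cn.xT) ((dat r ξ μ ζ hμ hζ).cfg.Vt r.cn.xT) =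
      (C (B.c1 (mxf ℂ ζ)) - X) ^ Fintype.card r.cn.KL := by
  have h0 : dot r.cn.kx (r.up d₀) = 0 := by
    refine Finset.sum_eq_zero fun j _ => ?_
    by_cases h : j = r.cn.jC
    · rw [h, show r.up d₀ r.cn.jC = 0 from r.up_C d₀, mul_zero]
    · rw [Conc78.Cn.kx, Pi.single_eq_of_ne h, zero_mul]
  rw [← Finset.card_univ, ← Finset.prod_const, ← hB.cp_top fun _ : r.cn.KL => mxf ℂ ζ,
    ← hB.cp_funLeft (g := (Prod.fst : r.cn.KL × I → _)) fun _ _ i hi => (hi ⟨(i, q₀), rfl⟩).elim]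
  congr 1
  · funext x
    exact (lw_single _ _).trans (congrArg _ (y_C r ξ hμ hζ _))
  · ext u
    rw [Node22.mem_Vt]
    refine ⟨fun h => ⟨fun p => u (p, q₀), trivial, funext fun x => ?_⟩, ?_⟩
    · obtain ⟨c, hc⟩ := (mem_V_zero _ h0).1 (h x.1)
      exact (hc q₀).trans (hc x.2).symm
    · rintro ⟨v, -, rfl⟩ p
      exact (mem_V_zero _ h0).2 ⟨v p, fun _ => rfl⟩

/-- the product end over a field which contains the points of `C` and `S` -/
theorem vir_TP (hB : B.Ax) (hR : Rk T ξ.cfg) (h1 : ¬ ξ.cfg.On T)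
    (h2 : ∃ p, ζ (r.cn.f (some p)) ≠ 0) {Φ : MFam B io₀ M} (hΦ : MCls B T Φ) (m : M → I) (q₀ : M)
    (n : ℕ) : vir B (TP r T) (dat r ξ μ ζ hμ hζ).cfg m
      (fun E _ _ y => hc B r.cn.jS E (y q₀) ^ n * Φ E fun q => r.pr (y q)) =
    sm (ξ.cfg.dv T) fun W => B.itg (Rf W) (B.pb (LP.at W)
      (B.c1 (mxf ℂ μ) ^ n * B.c1 (mxf ℂ ζ) ^ Fintype.card r.cn.KL) * trm B T ξ.cfg m Φ W) := by
  have hz := Tree87.nz_cfg (dat r ξ μ ζ hμ hζ)
  have hp := pc_dat r ξ hμ hζ
  have hx := cp_xT r ξ hμ hζ hB (m q₀)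
  have hS : hc B r.cn.jS K ((dat r ξ μ ζ hμ hζ).cfg.y (m q₀)) = B.c1 (mxf ℂ μ) :=
    congrArg (fun t => B.c1 (mxf ℂ t)) (y_S r ξ hμ hζ _)
  have n2 : ¬ (dat r ξ μ ζ hμ hζ).cfg.On r.cn.xT := fun h => h2.elim fun p hp => hp <| by
    rw [← y_C r ξ hμ hζ (m q₀), ← Cd62.sv_inr (T := T)]
    exact h (m q₀) p
  have hs : (dat r ξ μ ζ hμ hζ).cfg.sv r.cn.xT ∈ (dat r ξ μ ζ hμ hζ).cfg.Vt r.cn.xT :=
    Node22.mem_Vt.2 fun p => Tree87.pv_mem_cfg _ (r.cn.mh_xi p)
  generalize (dat r ξ μ ζ hμ hζ).cfg = z at *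
  have n1 : ¬ z.On (r.tgt T) := fun h => h1 (hp ▸ fun q => (r.on_tgt T _).1 (h q))
  have h3 := hB.eval_cp_line (a := z.ea r.cn.xT) hs fun h => n2 ((Cfg.on_iff _).2 h)
  rw [← Cfg.dv_eq_dst _ n2, hx] at h3
  have h4 := two_glob hB (Cfg.dv_nonneg T hR.nz) (Cfg.dv_nonneg r.cn.xT hz)
    ((hR.livX hB).mono (sup_sub hR.nz))
    ((Liv.glob hB (B.c1 (mxf ℂ μ) ^ n)).mul ((liv_evF hΦ hR.nz m).mono (sup_sub hR.nz)))
    (fun E _ _ _ p => hR.root' hB) h3
  rw [vir_eq_sm, Prd.dv_sum n1 n2, dv_tgt, hp]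
  refine Eq.trans (Vb.sm_congr fun W hW _ => ?_) (h4.trans (congrArg _ (funext fun W => ?_)))
  · have := essFT_Rf hW
    have h5 := cpz_TP r (T := T) hB (z.red (LP.at W).toPl)
    rw [Cd62.pc_red, hp, cpV_red hB _ hz, hx] at h5
    refine congrArg (B.itg (Rf W)) (congrArg₂ (· * ·)
      (congrArg (fun P : (B.H (Rf W))[X] => (-P.divX).eval _) h5) (congrArg₂ (· * ·) ?_ ?_))
    · rw [hc_red hB hz, hS, ← map_pow]
    · rw [← hp, evF, ← Cd62.pc_red]
      rfl
  · refine congrArg (B.itg (Rf W)) ?_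
    rw [trm_eq, eval_pow, eval_sub, eval_C, eval_X, sub_zero, map_mul]
    simp only [Pi.mul_apply]
    ring

/-- **the top coefficient** -/
theorem topStmt : TopStmt := by
  intro B hB J _ _ io _ _ J₀ _ _ io₀ _ _ A₀ _ r Tn c₀ d₀ hG
  obtain ⟨N₀, hN₀⟩ := rk_of Tree87.rankStmt hG
  refine ⟨N₀, fun N hN M _ S Φ hΦ q₀ r₀ hr => ?_⟩
  have hC : Fintype.card (io r.cn.jC) = Fintype.card r.cn.KL + 1 := by
    rw [← Fintype.card_congr r.cn.f, Fintype.card_option]
  have d1 := S.gζ.dm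
  have d2 := S.gμ.dm
  obtain ⟨k, -⟩ := S.ξ'.cp.2.1 r.cn.jU
  obtain ⟨l, -⟩ := S.hμ
  have h1 := sm_rel hB hΦ (S.a₂.comp S.a₁) (Tree87.nz_cfg S.ξ) S.m
    (l := List.replicate r₀ (mxf ℂ S.μ) ++
      (List.replicate (Fintype.card r.cn.KL) (mxf ℂ S.ζ)).map (pb S.a₂)) 
    (by simp only [List.length_append, List.length_map, List.length_replicate]; omega)
  rw [rn_tow _ _ (by rw [List.length_replicate]; omega), rn_pgen S.gζ hC, rn_pgen S.gμ hr, List.map_replicate, pb_mxf,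
    Tr89.pc_append, Tr89.pc_replicate, Tr89.pc_replicate, ← Vb37.cfg_map] at h1
  refine (vir_TP r _ _ _ hB (hN₀ _ (Tree87.nz_cfg _) (Vb37.nrmUp_map (Vb37.nrmUp_mono S.nrm hN) _))
    ?_ ⟨(k, l), (map_ne_zero S.a₂).2 (S.gζ.ne _)⟩ hΦ S.m q₀ r₀).trans (h1.trans (by simp))
  rw [Vb37.cfg_map, Cfg.on_map]
  exact End66.over_not_on S.ov hG.1

end Crest.Agent.X262.Read67
end
end

-- ▼ part X262/Sd95/Main
section

/-!
# Row 262, road B (helper95): existence of the special datum of the concave end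

* `exists_pgen` : the generic point of a projective space over a field;
* `exists_over` : a datum with algebraically generating moduli is the universal one;
* `nrmUp_dat`, `mdim_up`, `exSD`.
-/

set_option autoImplicit false
set_option linter.unusedSectionVars false

noncomputable section

namespace Crest.Agent.X262.Sd95

open Crest.Agent.X277 Crest.Agent.X277.BD Polynomial
open Crest.Agent.X262.Hb Crest.Agent.X262.Vb Crest.Agent.X262.Read67
open Crest.Agent.X262.Conc78 (Cd)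
open Crest.Agent.X262.Bub96 (hv)
open Crest.Agent.X262.Bub96.Tr (dot)
open IntermediateField (adjoin subset_adjoin)

section Fld

variable {K F L : Type} [Field K] [Algebra ℂ K] [Field F] [Algebra ℂ F] [Field L] [Algebra ℂ L]

variable (K) in
theorem exists_pgen [Algebra.EssFiniteType ℂ K] (Y : Type) [Fintype Y] [h : Nonempty Y] :
    ∃ (F : Type) (_ : Field F) (_ : Algebra ℂ F) (_ : Algebra.EssFiniteType ℂ F) (θ : K →ₐ[ℂ] F)
      (μ : Y → F), PGen θ μ := by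
  classical
  obtain ⟨x₀⟩ := h
  let R := MvPolynomial {x // x ≠ x₀} K
  let F := FractionRing R
  have hF : Algebra.EssFiniteType ℂ F := Algebra.EssFiniteType.comp ℂ K F
  let μ : Y → F := fun x => if h : x = x₀ then 1 else algebraMap R F (MvPolynomial.X ⟨x, h⟩)
  refine ⟨F, inferInstance, inferInstance, hF, IsScalarTower.toAlgHom ℂ K F, μ, fun x => ?_, ?_, ?_⟩
  · by_cases hx : x = x₀
    · simp [μ, hx]
    · simp only [μ, dif_neg hx]
      exact (map_ne_zero_iff _ (IsFractionRing.injective R F)).2 (MvPolynomial.X_ne_zero _)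
  · rw [eq_top_iff]
    intro t _
    obtain ⟨a, b, -, rfl⟩ := IsFractionRing.div_surjective (A := R) t
    have key : ∀ a : R, algebraMap R F a ∈ adjoin ℂ (Set.range (IsScalarTower.toAlgHom ℂ K F) ∪
        {t | ∃ x x', t = μ x / μ x'}) := by
      intro a
      induction a using MvPolynomial.induction_on with
      | C s => exact subset_adjoin _ _ (Or.inl ⟨s, rfl⟩)
      | add p q hp hq => rw [map_add]; exact add_mem hp hq
      | mul_X p n hp =>
        rw [map_mul]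
        exact mul_mem hp (subset_adjoin _ _ (Or.inr ⟨n.1, x₀, by simp [μ, n.2]⟩))
    exact div_mem (key a) (key b)
  · have h1 := trdeg_add_eq K R (A := F)
    have := IsLocalization.isAlgebraic F (nonZeroDivisors R)
    rw [MvPolynomial.trdeg_of_isDomain, trdeg_eq_zero, add_zero, Cardinal.lift_id,
      Cardinal.mk_fintype] at h1
    have h2 := trdeg_add_eq ℂ K (A := F)
    rw [← h1, trdeg_eq_dim, trdeg_eq_dim, ← Nat.cast_add, Nat.cast_inj] at h2
    have h3 := Fintype.card_subtype_compl fun x => x = x₀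
    have h4 : 0 < Fintype.card Y := Fintype.card_pos_iff.2 ⟨x₀⟩
    rw [Fintype.card_subtype_eq] at h3
    have h5 : Fintype.card {x // x ≠ x₀} = Fintype.card Y - 1 := by convert h3
    omega

theorem mem_of_pgen {Y : Type} [Fintype Y] {θ : K →ₐ[ℂ] F} {μ : Y → F} (g : PGen θ μ)
    (β : F →ₐ[ℂ] L) {G : IntermediateField ℂ L} (h1 : ∀ x, β (θ x) ∈ G)
    (h2 : ∀ x x', β (μ x) / β (μ x') ∈ G) (f : F) : β f ∈ G := by
  have h : adjoin ℂ (Set.range θ ∪ {t | ∃ x x', t = μ x / μ x'}) ≤ G.comap β := by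
    rw [IntermediateField.adjoin_le_iff]
    rintro _ (⟨x, rfl⟩ | ⟨x, x', rfl⟩)
    · exact h1 x
    · change β (μ x / μ x') ∈ G
      rw [map_div₀]
      exact h2 x x'
  exact h (g.gen ▸ IntermediateField.mem_top)

theorem alg_of_deg {θ : K →ₐ[ℂ] F} (h : 0 < deg θ) (β : F →ₐ[ℂ] L) {G : IntermediateField ℂ L}
    (h1 : ∀ x, β (θ x) ∈ G) (f : F) : IsAlgebraic G (β f) := by
  let _ := θ.toRingHom.toAlgebra
  have : FiniteDimensional K F := Module.finite_of_finrank_pos h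
  let φ : K →+* G := ((β.comp θ : K →ₐ[ℂ] L) : K →+* L).codRestrict G h1
  exact (Algebra.IsAlgebraic.isAlgebraic (R := K) f).ringHom_of_comp_eq φ (β : F →+* L)
    φ.injective (RingHom.ext fun _ => rfl)

end Fld

variable {J : Type} [Fintype J] [DecidableEq J] {io : J → Type} [∀ j, Fintype (io j)]
  [∀ j, DecidableEq (io j)] {J₀ : Type} [Fintype J₀] [DecidableEq J₀] {io₀ : J₀ → Type}
  [∀ j, Fintype (io₀ j)] [∀ j, DecidableEq (io₀ j)] {I M K L : Type} [Fintype M] [Field K]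
  [Algebra ℂ K] [Field L] [Algebra ℂ L]

/-- a normalised datum whose moduli generate the field up to an algebraic extension -/
theorem exists_over {d : J → ℕ} [Algebra.EssFiniteType ℂ L] (η : Dat io d I L) (m : M → I)
    (h3 : ∃ a b c, η.x (m a) = none ∧ η.x (m b) = some 0 ∧ η.x (m c) = some 1)
    (hd : dim ℂ L = mdim io d (Fintype.card M))
    (ha : ∀ f : L, IsAlgebraic (adjoin ℂ (η.res m).crd) f) :
    ∃ (F : Type) (_ : Field F) (_ : Algebra ℂ F) (_ : Algebra.EssFiniteType ℂ F) (τ : F →ₐ[ℂ] L),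
      Over η m τ ∧ 0 < deg τ := by
  set F := adjoin ℂ (η.res m).crd with hF
  obtain ⟨ζ, hx, s, hs, hf⟩ := Vb37.exists_desc (η.res m) F (subset_adjoin _ _)
  have : Algebra.IsAlgebraic F L := ⟨ha⟩
  have ht : Algebra.trdeg ℂ F = dim ℂ L := by
    have h := trdeg_add_eq ℂ F (A := L)
    rwa [trdeg_eq_zero (R := F), add_zero, trdeg_eq_dim (F := L)] at h
  have hu : ζ.Univ := by
    obtain ⟨a, b, c, h1, h2, h4⟩ := h3
    have hi := Option.map_injective (f := (F.val : F → L)) F.val.injective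
    refine ⟨⟨a, b, c, hi ((congrFun hx a).trans h1), hi ((congrFun hx b).trans h2),
      hi ((congrFun hx c).trans h4)⟩, ?_, by rw [ht, hd]⟩
    apply IntermediateField.map_injective F.val
    rw [IntermediateField.adjoin_map, ← Vb37.crd_map, ← Vb37.crd_eq hx.symm hs hf, ← hF,
      ← AlgHom.fieldRange_eq_map, IntermediateField.fieldRange_val]
  have hE := Vb37.univ_essFT hu
  refine ⟨F, inferInstance, inferInstance, hE, F.val, ⟨ζ, hu, Vb37.eqv_of_scl hx.symm hs hf⟩,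
    (deg_pos_iff _).2 ?_⟩
  rw [trdeg_eq_dim, Nat.cast_inj] at ht
  exact ht.symm

variable (r : Cd io₀ io) {d₀ : J₀ → ℕ}

theorem mdim_up {n : ℕ} (hn : 3 ≤ n) : mdim io (r.up d₀) n =
    mdim io₀ d₀ n + ((Fintype.card (io r.cn.jC) - 1) + (Fintype.card (io r.cn.jS) - 1)) := by
  have h : ∀ k, Fintype.card (io (r.e (some (some k)))) = Fintype.card (io₀ k) := fun k =>
    (Fintype.card_congr (r.ei k)).symm
  rw [mdim, mdim, Cd62.sum_e r]
  simp only [Cd.up_C, Cd.up_S, Cd.up_k, h, zero_add, mul_one]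
  change _ = _ + ((Fintype.card (io (r.e none)) - 1) + (Fintype.card (io (r.e (some none))) - 1))
  omega

theorem dot_eq (κ : J → ℕ) : dot κ (r.up d₀) = dot (fun k => κ (r.e (some (some k)))) d₀ := by
  simp [dot, Cd62.sum_e r]

theorem lw_tri (κ : J → ℕ) (y : Pnt io₀ K) (μ : io r.cn.jS → K) (ζ : io r.cn.jC → K) :
    lw κ (tri r y μ ζ) = (κ (r.e none) • mxf ℂ ζ + κ (r.e (some none)) • mxf ℂ μ) +
      lw (fun k => κ (r.e (some (some k)))) y := by
  rw [lw, Cd62.sum_e r, add_assoc, ln, ln, tri_C, tri_S]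
  simp only [← Cd62.ln_pr, pr_tri]
  rfl

theorem nrmUp_dat {ξ : Dat io₀ d₀ I K} {N : ℕ} (h : ξ.NrmUp N) {μ : io r.cn.jS → K}
    {ζ : io r.cn.jC → K} (hμ : ∃ i, μ i ≠ 0) (hζ : ∃ i, ζ i ≠ 0) :
    (dat r ξ μ ζ hμ hζ).NrmUp N := fun κ hκ L _ _ α W σ hσ hq t => by
  simp only [dat_map, dat_pt, dat_x, lw_tri, dot_eq, val_add] at hσ hq ⊢
  generalize hb : κ (r.e none) • mxf ℂ (α ∘ ζ) + κ (r.e (some none)) • mxf ℂ (α ∘ μ) = b
  have hb' := congrArg (fun a => BD.val a W) hb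
  simp only [val_add] at hb'
  rw [hb'] at hq ⊢
  have key : ∀ (x : L) (γ : W.1.ValueGroup), W.v ((b.gen W)⁻¹ * x) ≤ γ ↔ W.v x ≤ b.val W * γ :=
    fun x γ => by rw [map_mul, map_inv₀, v_gen, inv_mul_le_iff₀ (b.val_pos W)]
  have h1 := h _ (fun k => hκ _) L α W (C (b.gen W)⁻¹ * σ) ((natDegree_C_mul_le _ _).trans hσ)
  simp only [Vb37.hv_C_mul, key] at h1
  exact h1 hq t

theorem crd_dat (ξ : Dat io₀ d₀ I K) {μ : io r.cn.jS → K} {ζ : io r.cn.jC → K}
    (hμ : ∃ i, μ i ≠ 0) (hζ : ∃ i, ζ i ≠ 0) :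
    ξ.crd ⊆ (dat r ξ μ ζ hμ hζ).crd ∧ (∀ i i', μ i / μ i' ∈ (dat r ξ μ ζ hμ hζ).crd) ∧
      ∀ i i', ζ i / ζ i' ∈ (dat r ξ μ ζ hμ hζ).crd := by
  refine ⟨?_, fun i i' => Or.inl ⟨r.e (some none), i, i', 0, 0, ?_⟩,
    fun i i' => Or.inl ⟨r.e none, i, i', 0, 0, ?_⟩⟩
  · rintro t (⟨k, i, i', l, l', rfl⟩ | h)
    · exact Or.inl ⟨_, r.ei k i, r.ei k i', l, l', by rw [dat_f_k, dat_f_k]⟩
    · exact Or.inr h
  · rw [dat_f_S]; simp
  · rw [dat_f_C]; simp

/-- **the special datum exists** -/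
theorem exSD : ExSD := by
  intro J _ _ io _ _ J₀ _ _ io₀ _ _ r d₀ M _ N hM hio hS
  have hC : Nonempty (io r.cn.jC) := ⟨r.cn.f none⟩
  obtain ⟨K₀, _, _, _, ξ₀, hu⟩ := Vb37.exists_univ' hio hM
  obtain ⟨K, _, _, _, θ₀, n, ξ, hθ, hr, hN⟩ := Vb37.exNrm ξ₀ N
  obtain ⟨K₁, _, _, _, a₁, ζ, gζ⟩ := exists_pgen K (io r.cn.jC)
  obtain ⟨K₂, _, _, _, a₂, μ, gμ⟩ := exists_pgen K₁ (io r.cn.jS)
  have hζ := ex_comp gζ.ex a₂
  let η := dat r (ξ.map (a₂.comp a₁)) μ (a₂ ∘ ζ) gμ.ex hζ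
  have he : η.res Sum.inl = dat r (ξ₀.map ((a₂.comp a₁).comp θ₀)) μ (a₂ ∘ ζ) gμ.ex hζ := by
    rw [← Vb37.dmap_map, ← hr, Vb37.dmap_res]
    rfl
  have hx : ∀ q, η.x (.inl q) = (ξ₀.x q).map ((a₂.comp a₁).comp θ₀) := fun q =>
    congrFun (congrArg Dat.x he) q
  obtain ⟨F₀, _, _, _, τ, h1, h2⟩ := exists_over η Sum.inl
    (by
      obtain ⟨a, b, c, h1, h2, h3⟩ := hu.1
      exact ⟨a, b, c, by rw [hx, h1]; rfl, by rw [hx, h2]; simp, by rw [hx, h3]; simp⟩)
    (by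
      have e0 := hu.2.2
      rw [trdeg_eq_dim, Nat.cast_inj] at e0
      have e1 := (deg_pos_iff _).1 hθ
      have e2 := gζ.dm
      have e3 := gμ.dm
      have e4 : 0 < Fintype.card (io r.cn.jC) := Fintype.card_pos
      have e5 : 0 < Fintype.card (io r.cn.jS) := Fintype.card_pos
      rw [mdim_up r hM]
      omega)
    (by
      rw [he]
      obtain ⟨c1, c2, c3⟩ := crd_dat r (ξ₀.map ((a₂.comp a₁).comp θ₀)) gμ.ex hζ
      generalize (dat r (ξ₀.map ((a₂.comp a₁).comp θ₀)) μ (a₂ ∘ ζ) gμ.ex hζ).crd = Z at c1 c2 c3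
      let G : IntermediateField ℂ K₂ := (algebraicClosure (adjoin ℂ Z) K₂).restrictScalars ℂ
      have hG : ∀ f, f ∈ G ↔ IsAlgebraic (adjoin ℂ Z) f := fun f => mem_algebraicClosure_iff
      have hZ : ∀ f ∈ Z, f ∈ G := fun f hf =>
        (hG f).2 (isAlgebraic_algebraMap (⟨f, subset_adjoin _ _ hf⟩ : adjoin ℂ Z))
      have h0 : ∀ x, (a₂.comp a₁) (θ₀ x) ∈ adjoin ℂ Z := fun x => by
        refine IntermediateField.adjoin.mono _ _ _ c1 ?_
        rw [Vb37.crd_map, ← IntermediateField.adjoin_map, hu.2.1]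
        exact ⟨x, trivial, rfl⟩
      exact fun f => (hG f).1 (mem_of_pgen gμ (AlgHom.id ℂ K₂) (mem_of_pgen gζ a₂
        (fun x => (hG _).2 (alg_of_deg hθ (a₂.comp a₁) h0 x)) fun i i' => hZ _ (c3 i i'))
        (fun i i' => hZ _ (c2 i i')) f))
  exact ⟨{
    I := M ⊕ Fin n, K₀ := K₀, K := K, K₁ := K₁, K₂ := K₂, F₀ := F₀, ξ := ξ, m := Sum.inl, θ₀ := θ₀
    ov := ⟨ξ₀, hu, hr ▸ Vb37.eqv_refl _⟩
    pos := hθ, nrm := hN, a₁ := a₁, ζ := ζ, gζ := gζ, hζ := gζ.ex, a₂ := a₂, μ := μ, gμ := gμ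
    hμ := gμ.ex, τ := τ, ov' := h1, pos' := h2
    nrm' := nrmUp_dat r (Vb37.nrmUp_map hN _) _ _ }⟩

end Crest.Agent.X262.Sd95
end
end

-- ▼ part X262/Cd62/Fin
section

/-!
# Row 262, road B (helper62): concavity at field level from part (c)
-/

namespace Crest.Agent.X262.Cd62

/-- **concavity at field level** -/
theorem concF_of (hc : Conc78.CStmt) : Conc78.ConcF :=
  conc_of Cb72.bStmt hc Sd95.exSD Read67.topStmt

end Crest.Agent.X262.Cd62
end

-- ▼ part X262/Cc46/Abs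
section

/-!
# Row 262, road B, CONC (c) (helper46), part 1: the Chern polynomial of the concave part

* `cw ξ T` : `c ↦ ξ (c ∧ T)`;  `HW V T` : sections with values in the range of `w ↦ w ∧ T`;
* `cp_cw`  : the constants form a trivial bundle;
* `cp_HW`  : `cp HW(U ⊗ m) = (-X) ^ R · ob (X + c1 t)`, `ob = cp2 (cw 1 U) HW(U)`;
* `cq_mul` : the excess class of `cp · g`.
-/

set_option autoImplicit false
set_option linter.unusedSectionVars false

noncomputable section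

namespace Crest.Agent.X262.Cc46

open Crest.Agent.X277 Crest.Agent.X277.BD Crest.Agent.X262.Hb Polynomial

variable {E : Type} [Field E] [Algebra ℂ E] {I P A S : Type} [Fintype I] [Fintype P] [Fintype A]
  [Fintype S]

/-- `c ↦ ξ (c ∧ T)` -/
def cw (ξ : I → E) (T : I → P → E) : (P → E) →ₗ[E] ((P × P) × I → E) where
  toFun c x := ξ x.2 * (c x.1.1 * T x.2 x.1.2 - c x.1.2 * T x.2 x.1.1)
  map_add' c c' := _root_.funext fun x => by simp only [Pi.add_apply]; ring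
  map_smul' r c := _root_.funext fun x => by simp only [Pi.smul_apply, smul_eq_mul, RingHom.id_apply]; ring

theorem cw_apply (ξ : I → E) (T : I → P → E) (c : P → E) (p p' : P) (q : I) :
    cw ξ T c ((p, p'), q) = ξ q * (c p * T q p' - c p' * T q p) := rfl

/-- sections with values in the range of `w ↦ w ∧ T` -/
def HW (V : Submodule E (I → E)) (T : I → P → E) : Submodule E ((P × P) × I → E) where
  carrier := {σ | (∀ b, (fun q => σ (b, q)) ∈ V) ∧
    ∀ q, ∃ w : P → E, ∀ p p', σ ((p, p'), q) = w p * T q p' - w p' * T q p}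
  zero_mem' := ⟨fun _ => V.zero_mem, fun _ => ⟨0, fun _ _ => by simp⟩⟩
  add_mem' := by
    rintro σ τ ⟨h1, h2⟩ ⟨h3, h4⟩
    refine ⟨fun b => V.add_mem (h1 b) (h3 b), fun q => ?_⟩
    obtain ⟨w, hw⟩ := h2 q
    obtain ⟨w', hw'⟩ := h4 q
    exact ⟨w + w', fun p p' => by rw [Pi.add_apply, hw, hw', Pi.add_apply, Pi.add_apply]; ring⟩
  smul_mem' := by
    rintro r σ ⟨h1, h2⟩
    refine ⟨fun b => V.smul_mem r (h1 b), fun q => ?_⟩
    obtain ⟨w, hw⟩ := h2 q
    exact ⟨r • w, fun p p' => by simp only [Pi.smul_apply, hw, smul_eq_mul]; ring⟩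

theorem mem_HW {V : Submodule E (I → E)} {T : I → P → E} {σ : (P × P) × I → E} :
    σ ∈ HW V T ↔ (∀ b, (fun q => σ (b, q)) ∈ V) ∧
      ∀ q, ∃ w : P → E, ∀ p p', σ ((p, p'), q) = w p * T q p' - w p' * T q p := Iff.rfl

theorem HW_scl (V : Submodule E (I → E)) {T T' : I → P → E} {r : I → E} (hr : ∀ q, r q ≠ 0)
    (h : ∀ q p, T' q p = r q * T q p) : HW V T' = HW V T := by
  ext σ
  refine and_congr_right fun _ => forall_congr' fun q => ⟨fun ⟨w, hw⟩ => ⟨r q • w, fun p p' => ?_⟩,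
    fun ⟨w, hw⟩ => ⟨(r q)⁻¹ • w, fun p p' => ?_⟩⟩
  · simp only [hw, h, Pi.smul_apply, smul_eq_mul]
    ring
  · have := hr q
    simp only [hw, h, Pi.smul_apply, smul_eq_mul]
    field_simp

/-- at every valuation two of the points stay different -/
def Ind (a : I → BD ℂ E) (T : I → P → E) : Prop :=
  ∀ V : RZ ℂ E, ∃ q q' i j, V.v (T q i * T q' j - T q j * T q' i) = (a q).val V * (a q').val V

section Cst

variable {ξ : I → E} {T : I → P → E} {a a' : I → BD ℂ E}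

theorem nm_cw (hξ : ∀ q, ξ q ≠ 0) (ha : ∀ (V : RZ ℂ E) q p, V.v (T q p) ≤ (a q).val V)
    (hi : Ind a T) (ha' : ∀ (V : RZ ℂ E) q, (a' q).val V = V.v (ξ q) * (a q).val V) (V : RZ ℂ E)
    (c : P → E) : nm (fun x : (P × P) × I => a' x.2) V (cw ξ T c) = nm (fun _ => 0) V c := by
  apply le_antisymm
  · refine nm_le.2 fun ⟨⟨p, p'⟩, q⟩ => ?_
    have h : ∀ p p', V.v (c p * T q p') ≤ nm (fun _ => 0) V c * (a q).val V := fun p p' => by
      rw [map_mul]
      exact mul_le_mul' (by simpa using le_nm (fun _ => 0) V c p) (ha V q p')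
    rw [cw_apply, map_mul, ha', mul_left_comm]
    exact mul_le_mul_right (V.v.map_sub_le (h p p') (h p' p)) _
  · refine nm_le.2 fun p => ?_
    obtain ⟨q, q', i, j, h⟩ := hi V
    set γ := nm (fun x : (P × P) × I => a' x.2) V (cw ξ T c)
    have h1 : ∀ q p p', V.v (c p * T q p' - c p' * T q p) ≤ γ * (a q).val V := fun q p p' => by
      have h2 := le_nm (fun x : (P × P) × I => a' x.2) V (cw ξ T c) ((p, p'), q)
      rw [cw_apply, map_mul, ha', mul_left_comm] at h2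
      exact le_of_mul_le_mul_left h2 (zero_lt_iff.2 (RZ.ne_zero_iff.2 (hξ q)))
    have h2 : c p * (T q i * T q' j - T q j * T q' i) =
        (c p * T q i - c i * T q p) * T q' j - (c p * T q j - c j * T q p) * T q' i +
          T q p * (c i * T q' j - c j * T q' i) := by ring
    have h3 : V.v (c p) * ((a q).val V * (a q').val V) ≤ γ * ((a q).val V * (a q').val V) := by
      rw [← h, ← map_mul, h2, h]
      refine V.v.map_add_le (V.v.map_sub_le ?_ ?_) ?_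
      · rw [map_mul, ← mul_assoc]
        exact mul_le_mul' (h1 q p i) (ha V q' j)
      · rw [map_mul, ← mul_assoc]
        exact mul_le_mul' (h1 q p j) (ha V q' i)
      · rw [map_mul, mul_left_comm]
        exact mul_le_mul' (ha V q p) (h1 q' i j)
    rw [val_zero, mul_one]
    exact le_of_mul_le_mul_right h3 (mul_pos (val_pos _ _) (val_pos _ _))


theorem cw_le {V₀ V' : Submodule E (I → E)} (hV : ∀ x ∈ V₀, (fun q => ξ q * x q) ∈ V')
    (hT : ∀ p, (fun q => T q p) ∈ V₀) : LinearMap.range (cw ξ T) ≤ HW V' T := by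
  rintro _ ⟨c, rfl⟩
  exact ⟨fun b => hV _ (sub_mem (V₀.smul_mem (c b.1) (hT b.2)) (V₀.smul_mem (c b.2) (hT b.1))),
    fun q => ⟨ξ q • c, fun p p' => by simp only [cw_apply, Pi.smul_apply, smul_eq_mul]; ring⟩⟩

variable {B : Th} (hB : B.Ax) [Algebra.EssFiniteType ℂ E]
include hB

/-- the constants form a trivial bundle -/
theorem cp_cw (hξ : ∀ q, ξ q ≠ 0) (ha : ∀ (V : RZ ℂ E) q p, V.v (T q p) ≤ (a q).val V)
    (hi : Ind a T) (ha' : ∀ (V : RZ ℂ E) q, (a' q).val V = V.v (ξ q) * (a q).val V) :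
    B.cp (fun x : (P × P) × I => a' x.2) (LinearMap.range (cw ξ T)) = (-X) ^ Fintype.card P := by
  rw [← Submodule.map_top, hB.cp_iso fun V c _ => nm_cw hξ ha hi ha' V c, hB.cp_top]
  simp

end Cst

/-- `x ↦ ξ m m x` -/
def mu (ξ : I → E) (m : S → E) : ((A × A) × I → E) →ₗ[E] (((A × S) × (A × S)) × I → E) where
  toFun x y := ξ y.2 * (m y.1.1.2 * m y.1.2.2 * x ((y.1.1.1, y.1.2.1), y.2))
  map_add' c c' := _root_.funext fun x => by simp only [Pi.add_apply]; ring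
  map_smul' r c := _root_.funext fun x => by simp only [Pi.smul_apply, smul_eq_mul, RingHom.id_apply]; ring

theorem mu_apply (ξ : I → E) (m : S → E) (x : (A × A) × I → E) (p p' : A × S) (q : I) :
    mu ξ m x ((p, p'), q) = ξ q * (m p.2 * m p'.2 * x ((p.1, p'.1), q)) := rfl

/-- the tensor product with a constant vector -/
abbrev tn (U : I → A → E) (m : S → E) : I → A × S → E := fun q p => U q p.1 * m p.2

section Main

variable {ξ : I → E} {U : I → A → E} {m : S → E} {a a' : I → BD ℂ E} {t : BD ℂ E}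
  {V₀ V' : Submodule E (I → E)}

theorem isom_mu (hξ : ∀ q, ξ q ≠ 0) (ht : ∀ (V : RZ ℂ E) l, V.v (m l) ≤ t.val V)
    (ht' : ∀ V : RZ ℂ E, ∃ l, V.v (m l) = t.val V)
    (ha' : ∀ (V : RZ ℂ E) q, (a' q).val V = V.v (ξ q) * ((a q).val V * t.val V))
    (H : Submodule E ((A × A) × I → E)) :
    Isom (fun x : (A × A) × I => a x.2 + -t) (fun x : ((A × S) × (A × S)) × I => a' x.2) (mu ξ m)
      (LinearMap.range (cw 1 U)) H (LinearMap.range (cw ξ (tn U m))) := fun V x _ => by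
  have ht0 := val_ne t V
  apply le_antisymm
  · refine le_ds.2 ?_
    rintro _ ⟨c, rfl⟩
    have h0 : mu ξ m (cw 1 U c) ∈ LinearMap.range (cw ξ (tn U m)) :=
      ⟨fun p => c p.1 * m p.2, _root_.funext fun ⟨⟨p, p'⟩, q⟩ => by
        simp only [cw_apply, mu_apply, Pi.one_apply]; ring⟩
    refine (ds_le h0).trans ?_
    rw [← map_sub]
    refine nm_le.2 fun ⟨⟨p, p'⟩, q⟩ => ?_
    have h := le_nm (fun x : (A × A) × I => a x.2 + -t) V (x - cw 1 U c) ((p.1, p'.1), q)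
    rw [mu_apply, map_mul, map_mul, map_mul, ha', mul_left_comm (nm _ _ _)]
    refine mul_le_mul_right ((mul_le_mul' (mul_le_mul' (ht V _) (ht V _)) h).trans_eq ?_) _
    rw [val_add, val_neg]
    field_simp
  · refine le_ds.2 ?_
    rintro _ ⟨c, rfl⟩
    obtain ⟨l, hl⟩ := ht' V
    have hm : m l ≠ 0 := RZ.ne_zero_iff.1 (hl ▸ ht0)
    refine (ds_le (LinearMap.mem_range_self (cw 1 U) fun k => c (k, l) / m l)).trans
      (nm_le.2 fun ⟨⟨k, k'⟩, q⟩ => ?_)
    have h := le_nm (fun x : ((A × S) × (A × S)) × I => a' x.2) V (mu ξ m x - cw ξ (tn U m) c)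
      (((k, l), (k', l)), q)
    have h1 : (mu ξ m x - cw ξ (tn U m) c) (((k, l), (k', l)), q) =
        ξ q * (m l * m l * (x - cw 1 U fun k => c (k, l) / m l) ((k, k'), q)) := by
      simp only [Pi.sub_apply, cw_apply, mu_apply, Pi.one_apply]
      field_simp
    rw [h1, map_mul, map_mul, map_mul, hl, ha', mul_left_comm _ (V.v (ξ q))] at h
    have h2 := le_of_mul_le_mul_left h (zero_lt_iff.2 (RZ.ne_zero_iff.2 (hξ q)))
    refine le_of_mul_le_mul_left (h2.trans_eq ?_) (mul_pos (val_pos t V) (val_pos t V))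
    rw [val_add, val_neg]
    field_simp

theorem HW_tn (hξ : ∀ q, ξ q ≠ 0) (hm : ∃ l, m l ≠ 0) (hU0 : ∀ q, ∃ k, U q k ≠ 0)
    (hV : ∀ x, (fun q => ξ q * x q) ∈ V' ↔ x ∈ V₀) (hU : ∀ k, (fun q => U q k) ∈ V₀)
    (hP : ∀ x : A → I → E, (∀ k, x k ∈ V₀) → (∀ q, ∃ c, ∀ k, x k q = c * U q k) →
      ∃ c, ∀ q k, x k q = c * U q k) :
    HW V' (tn U m) = LinearMap.range (cw ξ (tn U m)) ⊔ (HW V₀ U).map (mu ξ m) := by
  have h0 : (HW V₀ U).map (mu ξ m) ≤ HW V' (tn U m) := by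
    rintro _ ⟨x, ⟨h1, h2⟩, rfl⟩
    refine ⟨fun b => (hV _).2 (V₀.smul_mem (m b.1.2 * m b.2.2) (h1 (b.1.1, b.2.1))), fun q => ?_⟩
    obtain ⟨w, hw⟩ := h2 q
    exact ⟨fun p => ξ q * (m p.2 * w p.1), fun p p' => by rw [mu_apply, hw]; ring⟩
  have hV' : ∀ x ∈ V', ∀ r : E, (fun q => r * x q / ξ q) ∈ V₀ := fun x hx r =>
    (hV _).1 (by
      have h : (fun q => ξ q * (r * x q / ξ q)) = r • x :=
        _root_.funext fun q => mul_div_cancel₀ _ (hξ q)
      exact h ▸ V'.smul_mem r hx)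
  refine le_antisymm (fun σ hσ => ?_) (sup_le (cw_le (fun x => (hV x).2) fun p => by
    have h : (fun q => tn U m q p) = m p.2 • fun q => U q p.1 := _root_.funext fun q => mul_comm _ _
    exact h ▸ V₀.smul_mem _ (hU p.1)) h0)
  obtain ⟨l, hl⟩ := hm
  obtain ⟨h1, h2⟩ := mem_HW.1 hσ
  choose w hw using h2
  let x : (A × A) × I → E := fun y => (m l * m l)⁻¹ * σ (((y.1.1, l), (y.1.2, l)), y.2) / ξ y.2
  have hx : x ∈ HW V₀ U := by
    refine ⟨fun b => hV' _ (h1 ((b.1, l), (b.2, l))) _, fun q => ?_⟩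
    refine ⟨fun k => w q (k, l) / (m l * ξ q), fun k k' => ?_⟩
    have := hξ q
    simp only [x, hw]
    field_simp
  have h3 := sub_mem hσ (h0 (Submodule.mem_map_of_mem hx))
  have h4 : ∀ q p p', (σ - mu ξ m x) ((p, p'), q) =
      (w q p - m p.2 * w q (p.1, l) / m l) * tn U m q p' -
        (w q p' - m p'.2 * w q (p'.1, l) / m l) * tn U m q p := fun q p p' => by
    have := hξ q
    simp only [Pi.sub_apply, mu_apply, x, hw]
    field_simp
    ring
  have h5 : ∀ p : A × S, ∃ c, ∀ q, w q p - m p.2 * w q (p.1, l) / m l = ξ q * c := fun p => by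
    have h6 : ∀ q k, (m l)⁻¹ * (σ - mu ξ m x) ((p, (k, l)), q) / ξ q =
        (w q p - m p.2 * w q (p.1, l) / m l) / ξ q * U q k := fun q k => by
      have := hξ q
      rw [h4]
      field_simp
      ring
    obtain ⟨c, hc⟩ := hP (fun k q => (m l)⁻¹ * (σ - mu ξ m x) ((p, (k, l)), q) / ξ q)
      (fun k => hV' _ (h3.1 (p, (k, l))) _) fun q => ⟨_, h6 q⟩
    refine ⟨c, fun q => ?_⟩
    obtain ⟨k, hk⟩ := hU0 q
    rw [← mul_right_cancel₀ hk ((h6 q k).symm.trans (hc q k)), mul_div_cancel₀ _ (hξ q)]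
  choose c hc using h5
  rw [← sub_add_cancel σ (mu ξ m x)]
  refine Submodule.add_mem_sup ⟨c, _root_.funext fun ⟨⟨p, p'⟩, q⟩ => ?_⟩ (Submodule.mem_map_of_mem hx)
  rw [h4, hc, hc, cw_apply]
  ring

theorem ind_tn (hi : Ind a U) (ht' : ∀ V : RZ ℂ E, ∃ l, V.v (m l) = t.val V) :
    Ind (fun q => a q + t) (tn U m) := fun V => by
  obtain ⟨q, q', i, j, h⟩ := hi V
  obtain ⟨l, hl⟩ := ht' V
  refine ⟨q, q', (i, l), (j, l), ?_⟩
  have h1 : tn U m q (i, l) * tn U m q' (j, l) - tn U m q (j, l) * tn U m q' (i, l) =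
      (U q i * U q' j - U q j * U q' i) * (m l * m l) := by ring
  rw [h1, map_mul, map_mul, h, hl, val_add, val_add, mul_mul_mul_comm]

variable {B : Th} (hB : B.Ax) [Algebra.EssFiniteType ℂ E]
include hB

/-- **the concave part** -/
theorem cp_HW (hξ : ∀ q, ξ q ≠ 0) (ha : ∀ (V : RZ ℂ E) q k, V.v (U q k) ≤ (a q).val V)
    (hi : Ind a U) (ht : ∀ (V : RZ ℂ E) l, V.v (m l) ≤ t.val V)
    (ht' : ∀ V : RZ ℂ E, ∃ l, V.v (m l) = t.val V)
    (ha' : ∀ (V : RZ ℂ E) q, (a' q).val V = V.v (ξ q) * ((a q).val V * t.val V))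
    (hU0 : ∀ q, ∃ k, U q k ≠ 0) (hV : ∀ x, (fun q => ξ q * x q) ∈ V' ↔ x ∈ V₀)
    (hU : ∀ k, (fun q => U q k) ∈ V₀)
    (hP : ∀ x : A → I → E, (∀ k, x k ∈ V₀) → (∀ q, ∃ c, ∀ k, x k q = c * U q k) →
      ∃ c, ∀ q k, x k q = c * U q k) :
    B.cp (fun x : ((A × S) × (A × S)) × I => a' x.2) (HW V' (tn U m)) =
      (-X) ^ Fintype.card (A × S) *
        (B.cp2 (fun x : (A × A) × I => a x.2) (LinearMap.range (cw 1 U)) (HW V₀ U)).comp
          (X + C (B.c1 t)) := by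
  have hm : ∃ l, m l ≠ 0 := (ht' (RZ.top ℂ E)).imp fun l hl =>
    RZ.ne_zero_iff.1 (hl ▸ val_ne t _)
  have h1 : LinearMap.range (cw 1 U) ≤ HW V₀ U :=
    cw_le (fun x hx => by simpa using hx) hU
  rw [HW_tn hξ hm hU0 hV hU hP, hB.cp_tower le_sup_left,
    hB.cp2_map h1 (isom_mu hξ ht ht' ha' _), hB.cp2_tw h1, map_neg, C_neg, sub_neg_eq_add,
    cp_cw hB (a := fun q => a q + t) hξ (fun V q p => ?_) (ind_tn hi ht') ha']
  rw [map_mul]
  exact mul_le_mul' (ha V q p.1) (ht V p.2)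


end Main


end Crest.Agent.X262.Cc46
end
end

-- ▼ part X262/Cc46/Tree
section

/-!
# Row 262, road B, CONC (c) (helper46), part 2: tree-like configurations

* `prop`    : sections proportional to the coordinates of a factor are multiples of them;
* `const`   : sections of degree zero are constant;
* `mul_iff`, `deg0` : factors of degree zero;
* `indep`, `ind` : factors of positive degree.
-/

set_option autoImplicit false
set_option linter.unusedSectionVars false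

noncomputable section

namespace Crest.Agent.X262.Cc46

open Crest.Agent.X277 Crest.Agent.X277.BD Crest.Agent.X277.Pst Crest.Agent.X277.BD.Cyc
open Crest.Agent.X262.Hb Crest.Agent.X262.Vb Crest.Agent.X262.Tree87 Crest.Agent.X262.Conc78
open Crest.Agent.X262.Bub96.Tr (dot)

variable {J : Type} [Fintype J] [DecidableEq J] {io : J → Type} [∀ j, Fintype (io j)]
  [∀ j, DecidableEq (io j)] {I E : Type} [Fintype I] [Field E] [Algebra ℂ E] {d : J → ℕ} {N : ℕ}
  {z : Cfg io I E}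

theorem pv_vr (y : Pnt io E) (j : J) (i : io j) : pv y (vr j i) = y j i := by simp [pv]

theorem hz_vr {C : Type} (j : J) (g : C → io j) (κ : J → ℕ) :
    HZ (fun _ : C => κ + Pi.single j 1) (fun _ : Unit => κ) fun c _ => vr j (g c) :=
  fun c _ => (MZ.of_MH (mh_vr j (g c))).congr fun j' => by simp

theorem single_le (j j' : J) : (Pi.single j 1 : J → ℕ) j' ≤ 1 := by
  rw [Pi.single_apply]
  split_ifs <;> simp

theorem dot_add_single (κ d : J → ℕ) (j : J) : dot (κ + Pi.single j 1) d = dot κ d + d j := by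
  simp [dot, add_mul, Finset.sum_add_distrib, Pi.single_apply]

theorem y_mem (h : TL d N z) (hN : 1 ≤ N) (j : J) (i : io j) :
    (fun q => z.y q j i) ∈ z.V (Pi.single j 1) := by
  simpa only [pv_vr] using h.pv_mem_V (mh_vr j i) fun j' => (single_le j j').trans hN

theorem mul_mem (h : TL d N z) {κ : J → ℕ} {j : J}
    (hκ : ∀ j', (κ + Pi.single j 1 : J → ℕ) j' ≤ N)
    (i : io j) {x : I → E} (hx : x ∈ z.V κ) :
    (fun q => z.y q j i * x q) ∈ z.V (κ + Pi.single j 1) := by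
  obtain ⟨k, _, _, _, ⟨D⟩⟩ := h
  have h1 := mem_Am.1 (D.mpL_mem (hz_vr j (fun _ : Unit => i) κ)
    (fun _ j' => le_trans (Nat.le_add_right _ _) (hκ j')) (fun _ => hκ) (σ := fun y => x y.2)
    (mem_Am.2 fun _ => hx)) ()
  simpa [mpL_apply, pv_vr] using h1

/-- sections proportional to the coordinates of a factor -/
theorem prop (h : TL d N z) {κ : J → ℕ} {j : J}
    (hκ : ∀ j', 2 * (κ + Pi.single j 1 : J → ℕ) j' ≤ N)
    (x : io j → I → E) (hx : ∀ i, x i ∈ z.V (κ + Pi.single j 1))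
    (hp : ∀ q, ∃ c, ∀ i, x i q = c * z.y q j i) :
    ∃ s ∈ z.V κ, ∀ q i, x i q = s q * z.y q j i := by
  obtain ⟨k, _, _, _, ⟨D⟩⟩ := h
  have h0 : ∀ y : Pnt io k, pR (fun (_ : Unit) (_ : Empty) => (0 : MvPolynomial (Vr io) ℂ)) y = ⊥ :=
    fun y => eq_bot_iff.2 (by
      rintro _ ⟨u, rfl⟩
      funext b
      simp [Matrix.mulVec, dotProduct])
  have h1 := (D.lift (k1 := fun _ : Empty => κ) (γ' := fun (_ : Unit) (_ : Empty) => 0)
    (fun _ a => a.elim) (hz_vr j id κ) (n' := 0) (fun x => by rw [h0, finrank_bot])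
    (fun x => by
      rw [h0, eq_bot_iff]
      intro u hu
      obtain ⟨i, hi⟩ := D.ok.ev_ne x j
      have h2 := mem_pK.1 hu i
      simp only [Finset.univ_unique, Finset.sum_singleton, pv_vr, id] at h2
      funext b
      exact (mul_eq_zero.1 h2).resolve_left hi)
    (fun _ j' => le_trans (Nat.mul_le_mul_left _ (Nat.le_add_right _ _)) (hκ j'))
    (fun _ => hκ)).1
  have h2 : (fun y : io j × I => x y.1 y.2) ∈
      Rb (fun _ : io j => κ + Pi.single j 1) (fun c (_ : Unit) => vr j (id c)) z := by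
    refine mem_Rb.2 ⟨hx, fun q => ?_⟩
    obtain ⟨c, hc⟩ := hp q
    exact ⟨fun _ => c, funext fun i => by
      simp [pM, Matrix.mulVec, dotProduct, pv_vr, hc, mul_comm]⟩
  rw [← h1] at h2
  obtain ⟨σ, h3, h4⟩ := h2
  refine ⟨_, mem_Am.1 h3 (), fun q i => ?_⟩
  have h5 := congrFun h4 (i, q)
  simp only [mpL_apply, Finset.univ_unique, Finset.sum_singleton, pv_vr, id] at h5
  rw [← h5, mul_comm]

theorem exists_smul {V : Submodule E (I → E)} (h : Module.finrank E V = 1) {u x : I → E}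
    (hu : u ∈ V) (h0 : u ≠ 0) (hx : x ∈ V) : ∃ c : E, ∀ q, x q = c * u q := by
  obtain ⟨c, hc⟩ := (finrank_eq_one_iff_of_nonzero' (⟨u, hu⟩ : V) (by simpa using h0)).1 h ⟨x, hx⟩
  exact ⟨c, fun q => (congrFun (congrArg Subtype.val hc) q).symm⟩

theorem nonempty (h : TL d N z) : Nonempty I := by
  by_contra h0
  rw [not_nonempty_iff] at h0
  have h1 := h.finrank_V (κ := 0) fun _ => Nat.zero_le _
  rw [Module.finrank_zero_of_subsingleton] at h1
  omega

/-- sections of degree zero are constant -/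
theorem const (h : TL d N z) {s : I → E} (hs : s ∈ z.V 0) : ∃ c, ∀ q, s q = c := by
  have := nonempty h
  have h1 : (fun _ => 1) ∈ z.V 0 := by
    simpa [pv] using h.pv_mem_V (F := 1) (MvPolynomial.isWeightedHomogeneous_one _ _)
      fun _ => Nat.zero_le _
  simpa using exists_smul (by simpa [dot] using h.finrank_V (κ := 0) fun _ => Nat.zero_le _) h1
    (fun h2 => one_ne_zero (congrFun h2 (Classical.arbitrary I))) hs

theorem prop0 (h : TL d N z) (hN : 2 ≤ N) {j : J} (x : io j → I → E)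
    (hx : ∀ i, x i ∈ z.V (Pi.single j 1)) (hp : ∀ q, ∃ c, ∀ i, x i q = c * z.y q j i) :
    ∃ c, ∀ q i, x i q = c * z.y q j i := by
  obtain ⟨s, h1, h2⟩ := prop h (κ := 0) (j := j)
    (fun j' => by have := single_le j j'; simp only [zero_add]; omega) x (by simpa using hx) hp
  obtain ⟨c, hc⟩ := const h h1
  exact ⟨c, fun q i => by rw [h2, hc]⟩

/-- a factor of degree zero is constant -/
theorem deg0 (h : TL d N z) (hN : 1 ≤ N) {j : J} (hd : d j = 0) {q₀ : I} {i : io j}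
    (hi : z.y q₀ j i ≠ 0) (q : I) :
    z.y q j i ≠ 0 ∧ ∀ i', z.y q j i' = z.y q j i / z.y q₀ j i * z.y q₀ j i' := by
  have h1 := h.finrank_V (κ := 0 + Pi.single j 1) fun j' => by
    simpa using (single_le j j').trans hN
  rw [dot_add_single, hd, zero_add] at h1
  choose c hc using fun i' => exists_smul (by simpa [dot] using h1) (y_mem h hN j i)
    (fun h2 => hi (congrFun h2 q₀)) (y_mem h hN j i')
  refine ⟨fun h0 => ?_, fun i' => ?_⟩
  · obtain ⟨i', h2⟩ := h.nz q j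
    exact h2 (by rw [hc i' q, h0, mul_zero])
  · rw [hc i' q, hc i' q₀]
    field_simp

theorem mul_iff (h : TL d N z) {κ : J → ℕ} {j : J}
    (hκ : ∀ j', (κ + Pi.single j 1 : J → ℕ) j' ≤ N)
    (hd : d j = 0) {i : io j} (hi : ∀ q, z.y q j i ≠ 0) (x : I → E) :
    (fun q => z.y q j i * x q) ∈ z.V (κ + Pi.single j 1) ↔ x ∈ z.V κ := by
  have h1 : sclS (fun q => z.y q j i) (z.V κ) = z.V (κ + Pi.single j 1) := by
    refine Submodule.eq_of_le_of_finrank_eq ?_ ?_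
    · rintro _ ⟨u, hu, rfl⟩
      exact mul_mem h hκ i hu
    · rw [Tree87.finrank_sclS hi, h.finrank_V hκ, dot_add_single, hd, add_zero,
        h.finrank_V fun j' => le_trans (Nat.le_add_right _ _) (hκ j')]
  rw [← h1, mul_mem_sclS_iff hi]

/-- a factor of positive degree is not constant -/
theorem indep (h : TL d N z) (hN : 2 ≤ N) {j : J} (hd : d j ≠ 0) :
    ∃ q q' a b, z.y q j a * z.y q' j b - z.y q j b * z.y q' j a ≠ 0 := by
  by_contra h0
  simp only [not_exists, not_not, sub_eq_zero] at h0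
  obtain ⟨q₀⟩ := nonempty h
  obtain ⟨a, ha⟩ := h.nz q₀ j
  have h1 := h.finrank_V (κ := 0 + Pi.single j 1) fun j' => by
    simpa using (single_le j j').trans (by omega)
  rw [dot_add_single, zero_add] at h1
  have h2 : z.V (Pi.single j 1) ≤ E ∙ fun q => z.y q j a := fun s hs => by
    obtain ⟨c, hc⟩ := prop0 h hN (fun i => z.y q₀ j i • s) (fun i => Submodule.smul_mem _ _ hs)
      fun q => by
        obtain ⟨b, hb⟩ := h.nz q j
        refine ⟨z.y q₀ j b * s q / z.y q j b, fun i => ?_⟩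
        rw [Pi.smul_apply, smul_eq_mul, div_mul_eq_mul_div, eq_div_iff hb]
        linear_combination s q * h0 q₀ q i b
    refine Submodule.mem_span_singleton.2 ⟨c / z.y q₀ j a, funext fun q => ?_⟩
    have h3 := hc q a
    rw [Pi.smul_apply, smul_eq_mul] at h3 ⊢
    rw [div_mul_eq_mul_div, ← h3, mul_div_cancel_left₀ _ ha]
  have h3 := (Submodule.finrank_mono h2).trans (finrank_span_le_card _)
  simp only [Set.toFinset_singleton, Finset.card_singleton] at h3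
  omega

theorem ind (hz : z.NZ) (h : ∀ V : RZ ℂ E, TL d N (z.red (plV V))) (hN : 2 ≤ N) {j : J}
    (hd : d j ≠ 0) : Ind (fun q => ln (z.y q) j) fun q => z.y q j := fun V => by
  obtain ⟨q, q', a, b, h1⟩ := indep (h V) hN hd
  refine ⟨q, q', a, b, ?_⟩
  have h2 : ∀ q i, z.nrm V q j * z.y q j i ∈ (plV V).V.1 := fun q i => (prim_nrm hz V q j).1 i
  change (plV V).r (z.nrm V q j * z.y q j a) * (plV V).r (z.nrm V q' j * z.y q' j b) -
    (plV V).r (z.nrm V q j * z.y q j b) * (plV V).r (z.nrm V q' j * z.y q' j a) ≠ 0 at h1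
  rw [← Pl.r_mul (h2 _ _) (h2 _ _), ← Pl.r_mul (h2 _ _) (h2 _ _),
    ← Pl.r_sub (Subring.mul_mem _ (h2 _ _) (h2 _ _)) (Subring.mul_mem _ (h2 _ _) (h2 _ _)),
    Pl.r_ne_zero_iff] at h1
  have h3 : z.nrm V q j * z.y q j a * (z.nrm V q' j * z.y q' j b) -
      z.nrm V q j * z.y q j b * (z.nrm V q' j * z.y q' j a) =
      z.nrm V q j * z.nrm V q' j * (z.y q j a * z.y q' j b - z.y q j b * z.y q' j a) := by ring
  have h4 : ∀ q, V.v (z.nrm V q j) = ((ln (z.y q) j).val V)⁻¹ := fun q => by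
    rw [Cfg.nrm, map_inv₀, v_gen]
  change V.v _ = 1 at h1
  rw [h3, map_mul, map_mul, h4, h4, ← mul_inv] at h1
  exact ((inv_mul_eq_one₀ (mul_ne_zero (val_ne _ _) (val_ne _ _))).1 h1).symm

end Crest.Agent.X262.Cc46
end
end

-- ▼ part X262/Cc46/Main

/-!
# Row 262, road B, CONC (c) (helper46), part 3: `cStmt : Conc78.CStmt`
-/

set_option autoImplicit false
set_option linter.unusedSectionVars false

noncomputable section

namespace Crest.Agent.X262.Cc46

open Crest.Agent.X277 Crest.Agent.X277.BD Crest.Agent.X277.Pst Crest.Agent.X277.BD.Cyc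
open Crest.Agent.X262.Hb Crest.Agent.X262.Vb Crest.Agent.X262.Tree87 Crest.Agent.X262.Conc78

variable {J : Type} [Fintype J] [DecidableEq J] {io : J → Type} [∀ j, Fintype (io j)]
  [∀ j, DecidableEq (io j)] {I E : Type} [Fintype I] [Field E] [Algebra ℂ E] {d : J → ℕ} {N : ℕ}
  {z : Cfg io I E} {P : Type} [Fintype P] [DecidableEq P]

theorem sum_wdM (t : P → MvPolynomial (Vr io) ℂ) (y : Pnt io E) (w : P → E) (b : P × P) :
    ∑ a, pv y (wdM t b a) * w a = w b.1 * pv y (t b.2) - w b.2 * pv y (t b.1) := by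
  have h : ∀ a, pv y (wdM t b a) =
      (if a = b.1 then pv y (t b.2) else 0) - if a = b.2 then pv y (t b.1) else 0 := fun a => by
    unfold wdM pv
    split_ifs <;> simp
  simp only [h, sub_mul, Finset.sum_sub_distrib, ite_mul, zero_mul, Finset.sum_ite_eq',
    Finset.mem_univ, if_true]
  ring

theorem Rb_wdM (t : P → MvPolynomial (Vr io) ℂ) (κ : J → ℕ) (z : Cfg io I E) :
    Rb (fun _ => κ) (wdM t) z = HW (z.V κ) fun q p => pv (z.y q) (t p) := by
  ext σ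
  rw [mem_Rb, mem_HW]
  refine and_congr_right fun _ => forall_congr' fun q => exists_congr fun w => ?_
  rw [funext_iff, Prod.forall]
  exact forall₂_congr fun p p' => by rw [← sum_wdM t (z.y q) w (p, p'), eq_comm]; rfl

theorem HU_eq (j : J) (z : Cfg io I E) :
    HU j z = HW (z.V (Pi.single j 1)) fun q => z.y q j := by
  simp only [HU, Rb_wdM, pv_vr]

theorem cU_eq (j : J) (z : Cfg io I E) : cU j z = LinearMap.range (cw 1 fun q => z.y q j) := by
  rw [LinearMap.range_eq_map, ← (Pi.basisFun E (io j)).span_eq, Submodule.map_span,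
    ← Set.range_comp, cU]
  congr 2
  funext a ⟨⟨p, p'⟩, q⟩
  have h := sum_wdM (vr j) (z.y q) (Pi.single a 1) (p, p')
  simp only [Pi.single_apply, mul_ite, mul_one, mul_zero, Finset.sum_ite_eq', Finset.mem_univ,
    if_true, pv_vr] at h
  simp [h, cw_apply, Pi.single_apply]

theorem ob_eq (B : Th) (j : J) (z : Cfg io I E) :
    ob B j z = B.cp2 (fun x : (io j × io j) × I => ln (z.y x.2) j)
      (LinearMap.range (cw 1 fun q => z.y q j)) (HW (z.V (Pi.single j 1)) fun q => z.y q j) := by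
  rw [ob, cU_eq, HU_eq]
  congr 1
  funext x
  exact lw_single _ _

/-- all reductions of a reduction of a normed datum are tree-like -/
theorem tl_all {K : Type} [Field K] [Algebra ℂ K] {ξ : Dat io d I K} (h : ξ.NrmUp N) (p : LP K E)
    (V : RZ ℂ E) : TL d N ((ξ.cfg.red p.toPl).red (plV V)) :=
  tl_red0 h p (LP.at V) (nrm_ne _ V) (prim_nrm (nz_red (nz_cfg ξ) p.toPl) V)

variable {B : Th} (hB : B.Ax) [Algebra.EssFiniteType ℂ E]
include hB

theorem ob_deg (h : TL d N z) {j : J} (hN : 2 * (Fintype.card (io j) + 1) ≤ N) (hd : d j ≠ 0) :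
    (ob B j z).natDegree ≤ d j - 1 ∧ (ob B j z).coeff (d j - 1) = (-1) ^ (d j - 1) :=
  ⟨Polynomial.natDegree_le_iff_coeff_eq_zero.2 fun _ hn =>
      hB.coeff_cp2_gt (Cc84.cU_le h (by omega) j) (Cc84.finrank_HU' h hN hd) hn,
    hB.coeff_cp2_top (Cc84.cU_le h (by omega) j) (Cc84.finrank_HU' h hN hd)⟩


theorem cp_HQ (n : Cn io) (hd : n.Dg d) (h : TL d N z)
    (h' : ∀ V : RZ ℂ E, TL d N (z.red (plV V))) (hN : 3 ≤ N) (hx : z.On n.xT) (q₀ : I) :
    B.cp (z.ea n.uT) (n.HQ z) = (-Polynomial.X) ^ Fintype.card n.KL *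
      (ob B n.jU z).comp (Polynomial.X + Polynomial.C (B.c1 (ln (z.y q₀) n.jS))) := by
  have x0 : ∀ q p, z.y q n.jC (n.f (some p)) = 0 := fun q p => (pv_vr _ _ _).symm.trans (hx q p)
  have x1 : ∀ q, z.y q n.jC (n.f none) ≠ 0 := fun q h0 => by
    obtain ⟨i, hi⟩ := h.nz q n.jC
    obtain ⟨_ | p, rfl⟩ := n.f.surjective i
    exacts [hi h0, hi (x0 q p)]
  have x2 : ∀ (V : RZ ℂ E) q, (ln (z.y q) n.jC).val V = V.v (z.y q n.jC (n.f none)) := fun V q =>
    val_mxf (x1 q) fun i => by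
      obtain ⟨_ | p, rfl⟩ := n.f.surjective i
      · exact le_rfl
      · simp [x0]
  obtain ⟨l, hl⟩ := h.nz q₀ n.jS
  have s0 := deg0 h (by omega) hd.S hl
  have s1 : ∀ q, z.y q n.jS l / z.y q₀ n.jS l ≠ 0 := fun q => div_ne_zero (s0 q).1 hl
  have s2 : ∀ (V : RZ ℂ E) q, (ln (z.y q) n.jS).val V =
      V.v (z.y q n.jS l / z.y q₀ n.jS l) * (ln (z.y q₀) n.jS).val V := fun V q => by
    apply le_antisymm
    · obtain ⟨i, hi⟩ := exists_ln (h.nz q) n.jS V
      rw [← hi, (s0 q).2 i, map_mul]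
      exact mul_le_mul_right (le_ln _ _ _ _) _
    · obtain ⟨i, hi⟩ := exists_ln (h.nz q₀) n.jS V
      rw [← hi, ← map_mul, ← (s0 q).2 i]
      exact le_ln _ _ _ _
  have k0 : n.kq = (Pi.single n.jU 1 + Pi.single n.jS 1) + Pi.single n.jC 1 := add_comm _ _
  have k1 := fun j => single_le n.jU j
  have k2 := fun j => single_le n.jS j
  have k3 := fun j => single_le n.jC j
  have h1 : n.HQ z = HW (z.V n.kq) (tn (fun q => z.y q n.jU) (z.y q₀ n.jS)) := by
    rw [Cn.HQ, Rb_wdM]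
    refine HW_scl _ s1 fun q p => ?_
    rw [Cn.tp, pv, map_mul, ← pv, ← pv, pv_vr, pv_vr, (s0 q).2 p.2, mul_left_comm]
  rw [h1, ob_eq]
  refine cp_HW hB (ξ := fun q => z.y q n.jC (n.f none) * (z.y q n.jS l / z.y q₀ n.jS l))
    (a := fun q => ln (z.y q) n.jU) (a' := fun q => lw n.kq (z.y q))
    (fun q => mul_ne_zero (x1 q) (s1 q)) (fun V q k => le_ln (z.y q) _ k V)
    (ind h.nz h' (by omega) hd.U) (fun V l => le_ln (z.y q₀) _ l V)
    (fun V => exists_ln (h.nz q₀) _ V) (fun V q => ?_) (fun q => h.nz q _) (fun x => ?_)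
    (y_mem h (by omega) _) (prop0 h (by omega))
  · rw [k0, lw_add, lw_add, lw_single, lw_single, lw_single, val_add, val_add, x2, s2, map_mul]
    ac_rfl
  · rw [← mul_iff h (κ := Pi.single n.jU 1) (fun j => by
        have := k1 j; have := k2 j; rw [Pi.add_apply]; omega) hd.S fun q => (s0 q).1,
      ← mul_iff h (κ := Pi.single n.jU 1 + Pi.single n.jS 1) (fun j => by
        have := k1 j; have := k2 j; have := k3 j; rw [Pi.add_apply, Pi.add_apply]; omega) hd.C x1,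
      ← k0, ← Submodule.smul_mem_iff _ hl]
    refine iff_of_eq (congrArg (· ∈ z.V n.kq) (funext fun q => ?_))
    rw [Pi.smul_apply, smul_eq_mul]
    field_simp

omit hB in
/-- **CONC (c)** -/
theorem cStmt : CStmt := by
  intro B hB J _ _ io _ _ n d hd
  refine ⟨2 * (Fintype.card (io n.jU) + 1) + 1, fun ξ h p z hz => ?_⟩
  subst hz
  exact ⟨ob_deg hB (Bub96.tl_red h _) (by omega) hd.U,
    cp_HQ hB n hd (Bub96.tl_red h _) (tl_all h p) (by omega)⟩

end Crest.Agent.X262.Cc46
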